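import Vale.Agent.P237.Full.Lemma.Cert1
import Vale.Agent.P237.Full.Lemma.Cert2

/-!
# P237: the one-dimensional profile inequality
-/

namespace Vale.Agent.P237.Full

open MeasureTheory Set Real
open Lemma

namespace Lemma

theorem sqrt_tangent {x r : ℝ} (hr : 0 < r) (hx : 0 < x + r ^ 2) :
    2 * r * x / (x + r ^ 2) ≤ √x := by
  rcases le_or_gt x 0 with h | h
  · exact (div_nonpos_of_nonpos_of_nonneg (by nlinarith) hx.le).trans (sqrt_nonneg x)
  · have hs := sq_sqrt h.le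
    rw [div_le_iff₀ hx]
    nlinarith [mul_nonneg (sqrt_nonneg x) (sq_nonneg (√x - r))]

/-- The pointwise inequality behind the profile inequality. -/
theorem pointwise {z ψ Φ : ℝ} (hz0 : 0 ≤ z) (hz1 : z ≤ 1) (hψ : 0 ≤ ψ)
    (hΦ1 : ψ ≤ z → ψ ^ 2 * (1 - z + ψ / 3) ≤ Φ)
    (hΦ2 : z ≤ ψ → z * ψ - 2 / 3 * z ^ 3 ≤ Φ) :
    121 / 200 * ψ ≤ √(1 - z ^ 2 + ψ) - √(1 - z ^ 2)
      + 129 / 2000 * (ψ * (ψ + 2 - 6 * z ^ 2)) + 41 / 500 * (2 * (ψ * √Φ)) := by
  rcases eq_or_lt_of_le hψ with rfl | hpos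
  · simp
  have hz2 : 0 ≤ 1 - z ^ 2 := by nlinarith
  set s := √(1 - z ^ 2)
  set g := √(1 - z ^ 2 + ψ) - s
  have hs0 : 0 ≤ s := sqrt_nonneg _
  have hs2 : s ^ 2 = 1 - z ^ 2 := sq_sqrt hz2
  have hs1 : s ≤ 1 := sqrt_le_one.2 (by nlinarith)
  have hf2 : (s + g) ^ 2 = 1 - z ^ 2 + ψ := by
    rw [show s + g = √(1 - z ^ 2 + ψ) by simp [g]]
    exact sq_sqrt (by linarith)
  have hψeq : (s + g) ^ 2 - s ^ 2 = ψ := by linarith
  have hg : 0 < g := sub_pos.2 (sqrt_lt_sqrt hz2 (by linarith))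
  have hzs : z ^ 2 = 1 - s ^ 2 := by linarith
  have hfac : ψ = g * (2 * s + g) := by rw [← hψeq]; ring
  have hlin : (s + g) ^ 2 + 5 * s ^ 2 - 4 = ψ + 2 - 6 * z ^ 2 := by linarith
  rcases le_total ψ z with hc | hc
  · set X := 27 / 40 - 10 / 13 * (1 - s ^ 2) + ψ / 3 with hX
    have hXX : X ≤ 1 - z + ψ / 3 := by
      nlinarith [sq_nonneg (z - 13 / 20)]
    have hden : 0 < X + 4 / 9 := by nlinarith [sq_nonneg s]
    have hP := poly1_nonneg hs0 hs1 hg.le
    rw [poly1, hψeq, ← hX, hlin] at hP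
    have hsX : 4 / 3 * X / (X + 4 / 9) ≤ √(1 - z + ψ / 3) := by
      refine le_trans (le_of_eq ?_) ((sqrt_tangent (x := X) (r := 2 / 3) (by norm_num) ?_).trans
        (sqrt_le_sqrt hXX))
      · norm_num
      · norm_num; linarith
    have hΦ : ψ * √(1 - z + ψ / 3) ≤ √Φ := by
      have h := sqrt_le_sqrt (hΦ1 hc)
      rwa [sqrt_mul (sq_nonneg ψ), sqrt_sq hψ] at h
    set Y := (82 / 375) * ψ * X / (X + 4 / 9)
    have hY : Y ≤ 41 / 500 * (2 * √Φ) := by
      have e : Y = 41 / 500 * (2 * (ψ * (4 / 3 * X / (X + 4 / 9)))) := by simp only [Y]; ring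
      rw [e]
      exact mul_le_mul_of_nonneg_left (mul_le_mul_of_nonneg_left
        ((mul_le_mul_of_nonneg_left hsX hψ).trans hΦ) two_pos.le) (by norm_num)
    have key : 0 ≤ 1 + (s + g + s) * (129 / 2000 * (ψ + 2 - 6 * z ^ 2) - 121 / 200)
        + (s + g + s) * Y := by
      refine le_of_mul_le_mul_left (a := X + 4 / 9) ?_ hden
      rw [mul_zero]
      refine hP.trans (le_of_eq ?_)
      have hYe : (X + 4 / 9) * Y = 82 / 375 * ψ * X := mul_div_cancel₀ _ hden.ne'
      linear_combination -(s + g + s) * hYe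
    have h2 := mul_nonneg hg.le key
    have h3 := mul_le_mul_of_nonneg_left hY hψ
    have e : g * (1 + (s + g + s) * (129 / 2000 * (ψ + 2 - 6 * z ^ 2) - 121 / 200)
        + (s + g + s) * Y) = g + ψ * (129 / 2000 * (ψ + 2 - 6 * z ^ 2) - 121 / 200) + ψ * Y := by
      rw [hfac]; ring
    rw [e] at h2
    linarith
  · obtain ⟨w, hw0, hwz, hP⟩ := exists_strip hs0 hs1 hg.le hzs hz0 (hψeq.symm ▸ hc)
    set L := w * (ψ - 2 / 3 * (1 - s ^ 2)) with hL
    rw [poly2, hψeq, ← hL, hlin] at hP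
    have hLL : L ≤ z * ψ - 2 / 3 * z ^ 3 := by
      have h := mul_le_mul_of_nonneg_right hwz (show 0 ≤ ψ - 2 / 3 * z ^ 2 by nlinarith)
      rw [hL, ← hzs]
      linarith
    have hL0 : 0 ≤ L := mul_nonneg hw0 (by nlinarith)
    have hden : 0 < L + 49 / 100 := by linarith
    set Y := (287 / 1250) * L / (L + 49 / 100)
    have hY : Y ≤ 41 / 500 * (2 * √Φ) := by
      have h := (sqrt_tangent (x := L) (r := 7 / 10) (by norm_num) (by norm_num; linarith)).trans
        (sqrt_le_sqrt (hLL.trans (hΦ2 hc)))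
      have e : Y = 41 / 500 * (2 * (2 * (7 / 10) * L / (L + (7 / 10) ^ 2))) := by
        simp only [Y]; ring
      rw [e]
      exact mul_le_mul_of_nonneg_left (mul_le_mul_of_nonneg_left h two_pos.le) (by norm_num)
    have key : 0 ≤ 1 + (s + g + s) * (129 / 2000 * (ψ + 2 - 6 * z ^ 2) - 121 / 200)
        + (s + g + s) * Y := by
      refine le_of_mul_le_mul_left (a := L + 49 / 100) ?_ hden
      rw [mul_zero]
      refine hP.trans (le_of_eq ?_)
      have hYe : (L + 49 / 100) * Y = 287 / 1250 * L := mul_div_cancel₀ _ hden.ne'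
      linear_combination -(s + g + s) * hYe
    have h2 := mul_nonneg hg.le key
    have h3 := mul_le_mul_of_nonneg_left hY hψ
    have e : g * (1 + (s + g + s) * (129 / 2000 * (ψ + 2 - 6 * z ^ 2) - 121 / 200)
        + (s + g + s) * Y) = g + ψ * (129 / 2000 * (ψ + 2 - 6 * z ^ 2) - 121 / 200) + ψ * Y := by
      rw [hfac]; ring
    rw [e] at h2
    linarith

/-- The quantity that closes the argument. -/
theorem final_bracket {Q : ℝ} (h0 : 0 ≤ Q) (h1 : Q ≤ 817 / 1000) :
    1 / 10000 ≤ π / 2 * (121 / 200 - 41 / 375 * Q) + (121 / 200 - 41 / 375 * Q) ^ 2 * Q ^ 2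
      - 3 * π ^ 2 / 32 := by
  have hl := pi_gt_d4
  have hu := pi_lt_d4
  have h2 : π ^ 2 ≤ 3.1416 ^ 2 := pow_le_pow_left₀ pi_pos.le hu.le 2
  have h3 : 0 ≤ 121 / 200 - 41 / 375 * Q := by linarith
  have h4 : 3.1415 / 2 * (121 / 200 - 41 / 375 * Q) ≤ π / 2 * (121 / 200 - 41 / 375 * Q) :=
    mul_le_mul_of_nonneg_right (by linarith) h3
  nlinarith [sq_nonneg (Q - 276 / 1000), mul_nonneg h0 (sub_nonneg.2 h1)]

theorem integral_sigma : ∫ t in (0 : ℝ)..1, √(1 - t ^ 2) = π / 4 := by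
  have h := integral_sqrt_one_sub_sq
  have hi : ∀ a b : ℝ, IntervalIntegrable (fun t : ℝ => √(1 - t ^ 2)) volume a b := fun a b =>
    (by fun_prop : Continuous fun t : ℝ => √(1 - t ^ 2)).intervalIntegrable a b
  rw [← intervalIntegral.integral_add_adjacent_intervals (hi (-1) 0) (hi 0 1)] at h
  have e : ∫ t in (-1 : ℝ)..0, √(1 - t ^ 2) = ∫ t in (0 : ℝ)..1, √(1 - t ^ 2) := by
    have := intervalIntegral.integral_comp_neg (fun t : ℝ => √(1 - t ^ 2)) (a := -1) (b := 0)
    simpa using this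
  linarith

section
variable {a : ℝ → ℝ}

theorem normalised (ha : Antitone a) (hlow : ∀ z ∈ Icc (0 : ℝ) 1, 1 - z ^ 2 ≤ a z)
    (h4 : ∫ z in (0 : ℝ)..1, a z ^ 2 ≤ 4 * ∫ z in (0 : ℝ)..1, z ^ 2 * a z) :
    ∃ P : ℝ, P = (∫ z in (0 : ℝ)..1, (a z - (1 - z ^ 2))) ∧ 0 ≤ P ∧
      3 * π ^ 2 / 32 * (∫ z in (0 : ℝ)..1, a z) + P / 10000 ≤ (∫ z in (0 : ℝ)..1, √(a z)) ^ 2 := by
  set ψ : ℝ → ℝ := fun z => a z - (1 - z ^ 2)
  set Φ : ℝ → ℝ := fun z => ∫ t in (0 : ℝ)..z, ψ t
  have hai : ∀ u v : ℝ, IntervalIntegrable a volume u v := fun u v => ha.intervalIntegrable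
  have hψi : ∀ u v : ℝ, IntervalIntegrable ψ volume u v := fun u v =>
    (hai u v).sub ((by fun_prop : Continuous fun z : ℝ => 1 - z ^ 2).intervalIntegrable u v)
  have hψm : Measurable ψ := ha.measurable.sub (by fun_prop)
  have hψ0 : ∀ z ∈ Icc (0 : ℝ) 1, 0 ≤ ψ z := fun z hz => sub_nonneg.2 (hlow z hz)
  have ha0 : ∀ z ∈ Icc (0 : ℝ) 1, 0 ≤ a z := fun z hz =>
    le_trans (by nlinarith [hz.1, hz.2]) (hlow z hz)
  have hΦ0 : ∀ z ∈ Icc (0 : ℝ) 1, 0 ≤ Φ z := fun z hz =>
    intervalIntegral.integral_nonneg hz.1 fun t ht => hψ0 t ⟨ht.1, ht.2.trans hz.2⟩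
  have hΦc : Continuous Φ := intervalIntegral.continuous_primitive hψi 0
  set P := Φ 1
  have hP0 : 0 ≤ P := hΦ0 1 ⟨zero_le_one, le_rfl⟩
  -- lower bound of the primitive
  have hlowΦ : ∀ z ∈ Icc (0 : ℝ) 1, ∀ d ∈ Icc (0 : ℝ) z,
      d * ψ z - z * d ^ 2 + d ^ 3 / 3 ≤ Φ z := by
    intro z hz d hd
    have hsplit : Φ z = (∫ t in (0 : ℝ)..(z - d), ψ t) + ∫ t in (z - d)..z, ψ t :=
      (intervalIntegral.integral_add_adjacent_intervals (hψi _ _) (hψi _ _)).symm
    have h1 : 0 ≤ ∫ t in (0 : ℝ)..(z - d), ψ t :=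
      intervalIntegral.integral_nonneg (by linarith [hd.2]) fun t ht =>
        hψ0 t ⟨ht.1, by linarith [ht.2, hd.1, hz.2]⟩
    have h2 : (∫ t in (z - d)..z, (ψ z - z ^ 2 + t ^ 2)) ≤ ∫ t in (z - d)..z, ψ t :=
      intervalIntegral.integral_mono_on (by linarith [hd.1])
        ((by fun_prop : Continuous fun t : ℝ => ψ z - z ^ 2 + t ^ 2).intervalIntegrable _ _)
        (hψi _ _) fun t ht => by
          have := ha ht.2
          simp only [ψ]
          linarith
    have e : (∫ t in (z - d)..z, (ψ z - z ^ 2 + t ^ 2)) = d * ψ z - z * d ^ 2 + d ^ 3 / 3 := by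
      rw [intervalIntegral.integral_add intervalIntegrable_const
        ((continuous_pow 2).intervalIntegrable _ _), intervalIntegral.integral_const, integral_pow,
        smul_eq_mul]
      push_cast
      ring
    linarith
  -- the chain rule for the power three halves of the primitive
  have hweight : ∫ z in (0 : ℝ)..1, ψ z * √(Φ z) = 2 / 3 * (P * √P) := by
    have hG : ∀ x : ℝ, 0 ≤ x → x ^ (3 / 2 : ℝ) = x * √x := fun x hx => by
      rw [sqrt_eq_rpow, show (3 / 2 : ℝ) = 1 + 1 / 2 by norm_num,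
        rpow_add_of_nonneg hx one_pos.le (by norm_num), rpow_one]
    set S := {x : ℝ | ¬ ContinuousAt a x}
    have hd : ∀ x ∈ Ioo (min (0 : ℝ) 1) (max 0 1) \ S,
        HasDerivAt (fun z => 2 / 3 * Φ z ^ (3 / 2 : ℝ)) (ψ x * √(Φ x)) x := by
      intro x hx
      have hca : ContinuousAt a x := not_not.1 hx.2
      have hc : ContinuousAt ψ x := hca.sub (by fun_prop)
      have h1 : HasDerivAt Φ (ψ x) x := intervalIntegral.integral_hasDerivAt_right (hψi 0 x)
        hψm.stronglyMeasurable.stronglyMeasurableAtFilter hc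
      have h2 := (h1.rpow_const (p := (3 / 2 : ℝ)) (Or.inr (by norm_num))).const_mul (2 / 3 : ℝ)
      refine h2.congr_deriv ?_
      rw [show (3 / 2 : ℝ) - 1 = 1 / 2 by norm_num, ← sqrt_eq_rpow]
      ring
    have hcont : Continuous fun z => 2 / 3 * Φ z ^ (3 / 2 : ℝ) :=
      continuous_const.mul (hΦc.rpow_const fun _ => Or.inr (by norm_num))
    have h := MeasureTheory.integral_eq_of_hasDerivAt_off_countable
      (fun z => 2 / 3 * Φ z ^ (3 / 2 : ℝ)) (fun z => ψ z * √(Φ z))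
      (Antitone.countable_not_continuousAt ha) hcont.continuousOn hd
      ((hψi 0 1).mul_continuousOn (hΦc.sqrt.continuousOn))
    rw [h, hG _ hP0, show Φ 0 = 0 from intervalIntegral.integral_same]
    simp
  -- the second moment constraint
  have ha2 : IntervalIntegrable (fun z => a z ^ 2) volume 0 1 := by
    refine AntitoneOn.intervalIntegrable ?_
    rw [uIcc_of_le zero_le_one]
    exact fun x hx y hy hxy => pow_le_pow_left₀ (ha0 y hy) (ha hxy) 2
  have hz2a : IntervalIntegrable (fun z => z ^ 2 * a z) volume 0 1 :=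
    (hai 0 1).continuousOn_mul (continuous_pow 2).continuousOn
  have hC : ∫ z in (0 : ℝ)..1, ψ z * (ψ z + 2 - 6 * z ^ 2) ≤ 0 := by
    have e : (fun z => ψ z * (ψ z + 2 - 6 * z ^ 2))
        = fun z => a z ^ 2 - 4 * (z ^ 2 * a z) + (-1 + 6 * z ^ 2 - 5 * z ^ 4) := by
      ext z; simp only [ψ]; ring
    have e0 : ∫ z in (0 : ℝ)..1, (-1 + 6 * z ^ 2 - 5 * z ^ 4 : ℝ) = 0 := by
      rw [intervalIntegral.integral_sub ((by fun_prop : Continuous fun z : ℝ => -1 + 6 * z ^ 2).intervalIntegrable _ _)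
        ((by fun_prop : Continuous fun z : ℝ => 5 * z ^ 4).intervalIntegrable _ _),
        intervalIntegral.integral_add intervalIntegrable_const
        ((by fun_prop : Continuous fun z : ℝ => 6 * z ^ 2).intervalIntegrable _ _),
        intervalIntegral.integral_const, intervalIntegral.integral_const_mul,
        intervalIntegral.integral_const_mul, integral_pow, integral_pow]
      norm_num
    rw [e, intervalIntegral.integral_add (ha2.sub (hz2a.const_mul 4))
      ((by fun_prop : Continuous fun z : ℝ => -1 + 6 * z ^ 2 - 5 * z ^ 4).intervalIntegrable _ _),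
      intervalIntegral.integral_sub ha2 (hz2a.const_mul 4), intervalIntegral.integral_const_mul, e0]
    linarith
  set X := ∫ z in (0 : ℝ)..1, a z
  have hX : X = 2 / 3 + P := by
    have e : P = X - ∫ z in (0 : ℝ)..1, (1 - z ^ 2 : ℝ) := intervalIntegral.integral_sub (hai 0 1)
      ((by fun_prop : Continuous fun z : ℝ => 1 - z ^ 2).intervalIntegrable _ _)
    have e2 : ∫ z in (0 : ℝ)..1, (1 - z ^ 2 : ℝ) = 2 / 3 := by
      rw [intervalIntegral.integral_sub intervalIntegrable_const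
        ((continuous_pow 2).intervalIntegrable _ _), intervalIntegral.integral_const, integral_pow]
      norm_num
    linarith
  -- the crude bound on the excess
  have hXub : X ≤ 4 / 3 := by
    have hcheb : (∫ z in (0 : ℝ)..1, z ^ 2 * a z) ≤ X / 3 := by
      set c := √(1 / 3 : ℝ)
      have hc : c ^ 2 = 1 / 3 := sq_sqrt (by norm_num)
      have hc0 : 0 ≤ c := sqrt_nonneg _
      have h : ∫ z in (0 : ℝ)..1, (z ^ 2 * a z - 1 / 3 * a z - a c * (z ^ 2 - 1 / 3))
          ≤ ∫ z in (0 : ℝ)..1, (0 : ℝ) := by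
        refine intervalIntegral.integral_mono_on zero_le_one
          ((hz2a.sub ((hai 0 1).const_mul _)).sub
            ((by fun_prop : Continuous fun z : ℝ => a c * (z ^ 2 - 1 / 3)).intervalIntegrable _ _))
          intervalIntegrable_const fun z hz => ?_
        rcases le_total z c with h | h
        · nlinarith [ha h, pow_le_pow_left₀ hz.1 h 2]
        · nlinarith [ha h, pow_le_pow_left₀ hc0 h 2]
      rw [intervalIntegral.integral_sub (hz2a.sub ((hai 0 1).const_mul _))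
          ((by fun_prop : Continuous fun z : ℝ => a c * (z ^ 2 - 1 / 3)).intervalIntegrable _ _),
        intervalIntegral.integral_sub hz2a ((hai 0 1).const_mul _),
        intervalIntegral.integral_const_mul, intervalIntegral.integral_const_mul,
        intervalIntegral.integral_sub ((continuous_pow 2).intervalIntegrable _ _)
          intervalIntegrable_const, integral_pow, intervalIntegral.integral_const,
        intervalIntegral.integral_zero] at h
      norm_num at h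
      linarith
    have hsq : 0 ≤ ∫ z in (0 : ℝ)..1, (a z ^ 2 - 2 * X * a z + X ^ 2) :=
      intervalIntegral.integral_nonneg zero_le_one fun z _ => by nlinarith [sq_nonneg (a z - X)]
    rw [intervalIntegral.integral_add (ha2.sub ((hai 0 1).const_mul _)) intervalIntegrable_const,
      intervalIntegral.integral_sub ha2 ((hai 0 1).const_mul _),
      intervalIntegral.integral_const_mul, intervalIntegral.integral_const] at hsq
    simp only [sub_zero, one_smul] at hsq
    nlinarith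
  -- integrate the pointwise inequality
  have hsa : IntervalIntegrable (fun z => √(a z)) volume 0 1 :=
    AntitoneOn.intervalIntegrable fun x _ y _ hxy => sqrt_le_sqrt (ha hxy)
  have hsσ : IntervalIntegrable (fun z : ℝ => √(1 - z ^ 2)) volume 0 1 :=
    (by fun_prop : Continuous fun z : ℝ => √(1 - z ^ 2)).intervalIntegrable _ _
  have hi2 : IntervalIntegrable (fun z => ψ z * (ψ z + 2 - 6 * z ^ 2)) volume 0 1 := by
    refine ((ha2.sub (hz2a.const_mul 4)).add ((by fun_prop :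
      Continuous fun z : ℝ => -1 + 6 * z ^ 2 - 5 * z ^ 4).intervalIntegrable _ _)).congr ?_
    intro z _
    simp only [ψ]
    ring
  have hi3 : IntervalIntegrable (fun z => ψ z * √(Φ z)) volume 0 1 :=
    (hψi 0 1).mul_continuousOn hΦc.sqrt.continuousOn
  have hmain : ∫ z in (0 : ℝ)..1, 121 / 200 * ψ z ≤ ∫ z in (0 : ℝ)..1, (√(a z) - √(1 - z ^ 2)
      + 129 / 2000 * (ψ z * (ψ z + 2 - 6 * z ^ 2)) + 41 / 500 * (2 * (ψ z * √(Φ z)))) := by
    refine intervalIntegral.integral_mono_on zero_le_one ((hψi 0 1).const_mul _)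
      (((hsa.sub hsσ).add (hi2.const_mul _)).add ((hi3.const_mul _).const_mul _)) fun z hz => ?_
    have h := pointwise hz.1 hz.2 (hψ0 z hz) (Φ := Φ z)
      (fun hle => le_trans (le_of_eq (by ring)) (hlowΦ z hz (ψ z) ⟨hψ0 z hz, hle⟩))
      (fun _ => le_trans (le_of_eq (by ring)) (hlowΦ z hz z ⟨hz.1, le_rfl⟩))
    simpa [ψ] using h
  rw [intervalIntegral.integral_const_mul, intervalIntegral.integral_add
      ((hsa.sub hsσ).add (hi2.const_mul _)) ((hi3.const_mul _).const_mul _),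
    intervalIntegral.integral_add (hsa.sub hsσ) (hi2.const_mul _),
    intervalIntegral.integral_sub hsa hsσ, intervalIntegral.integral_const_mul,
    intervalIntegral.integral_const_mul, intervalIntegral.integral_const_mul, hweight,
    integral_sigma] at hmain
  change 121 / 200 * P ≤ _ at hmain
  set Q := √P
  have hQ : Q ^ 2 = P := sq_sqrt hP0
  have hQ1 : Q ≤ 817 / 1000 := by
    refine (sqrt_le_sqrt (show P ≤ (817 / 1000) ^ 2 by norm_num; linarith)).trans (le_of_eq ?_)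
    exact sqrt_sq (by norm_num)
  set c := 121 / 200 - 41 / 375 * Q
  have hc : 0 ≤ c := by simp only [c]; linarith
  have hJ : π / 4 + c * P ≤ ∫ z in (0 : ℝ)..1, √(a z) := by
    have e : c * P = 121 / 200 * P - 41 / 500 * (2 * (2 / 3 * (P * Q))) := by simp only [c]; ring
    linarith
  refine ⟨P, rfl, hP0, ?_⟩
  refine le_trans ?_ (pow_le_pow_left₀ (add_nonneg (by positivity) (mul_nonneg hc hP0)) hJ 2)
  have hb := mul_le_mul_of_nonneg_left (final_bracket (sqrt_nonneg P) hQ1) hP0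
  rw [hQ] at hb
  rw [hX]
  have e : (π / 4 + c * P) ^ 2 = π ^ 2 / 16 + P * (π / 2 * c + c ^ 2 * P) := by ring
  rw [e]
  simp only [c, Q]
  linarith

end

end Lemma

/-- The profile inequality, with its case of equality. -/
theorem profile_bound {A : ℝ → ℝ} {B : ℝ} (hB : 0 < B) (hA : AntitoneOn A (Icc 0 1))
    (hlow : ∀ z ∈ Icc (0 : ℝ) 1, B * (1 - z ^ 2) ≤ A z)
    (h4 : ∫ z in (0:ℝ)..1, A z ^ 2 ≤ 4 * B * ∫ z in (0:ℝ)..1, z ^ 2 * A z) :
    3 * Real.pi ^ 2 / 32 * (∫ z in (0:ℝ)..1, A z) ≤ (∫ z in (0:ℝ)..1, √(A z)) ^ 2 ∧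
      ((∫ z in (0:ℝ)..1, √(A z)) ^ 2 ≤ 3 * Real.pi ^ 2 / 32 * (∫ z in (0:ℝ)..1, A z) →
        ∫ z in (0:ℝ)..1, (A z - B * (1 - z ^ 2)) = 0) := by
  set a : ℝ → ℝ := fun t => A (max 0 (min 1 t)) / B
  have hmem : ∀ t : ℝ, max 0 (min 1 t) ∈ Icc (0 : ℝ) 1 := fun t =>
    ⟨le_max_left _ _, max_le zero_le_one (min_le_left _ _)⟩
  have ha : Antitone a := fun x y hxy =>
    div_le_div_of_nonneg_right (hA (hmem x) (hmem y) (max_le_max le_rfl (min_le_min le_rfl hxy))) hB.le
  have heq : ∀ z ∈ Icc (0 : ℝ) 1, A z = B * a z := fun z hz => by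
    simp only [a]
    rw [min_eq_right hz.2, max_eq_right hz.1]
    field_simp
  have hlow' : ∀ z ∈ Icc (0 : ℝ) 1, 1 - z ^ 2 ≤ a z := fun z hz =>
    le_of_mul_le_mul_left (heq z hz ▸ hlow z hz) hB
  have hcongr : ∀ (F : ℝ → ℝ → ℝ), ∫ z in (0:ℝ)..1, F z (A z) = ∫ z in (0:ℝ)..1, F z (B * a z) :=
    fun F => intervalIntegral.integral_congr fun z hz => by
      rw [uIcc_of_le zero_le_one] at hz
      simp only [heq z hz]
  have e1 : ∫ z in (0:ℝ)..1, A z = B * ∫ z in (0:ℝ)..1, a z := by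
    rw [hcongr fun _ x => x, intervalIntegral.integral_const_mul]
  have e2 : ∫ z in (0:ℝ)..1, √(A z) = √B * ∫ z in (0:ℝ)..1, √(a z) := by
    rw [hcongr fun _ x => √x, ← intervalIntegral.integral_const_mul]
    simp only [sqrt_mul hB.le]
  have e3 : ∫ z in (0:ℝ)..1, A z ^ 2 = B ^ 2 * ∫ z in (0:ℝ)..1, a z ^ 2 := by
    rw [hcongr fun _ x => x ^ 2, ← intervalIntegral.integral_const_mul]
    simp only [mul_pow]
  have e4 : ∫ z in (0:ℝ)..1, z ^ 2 * A z = B * ∫ z in (0:ℝ)..1, z ^ 2 * a z := by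
    rw [hcongr fun z x => z ^ 2 * x, ← intervalIntegral.integral_const_mul]
    simp only [mul_left_comm]
  have h4' : ∫ z in (0:ℝ)..1, a z ^ 2 ≤ 4 * ∫ z in (0:ℝ)..1, z ^ 2 * a z := by
    rw [e3, e4] at h4
    refine le_of_mul_le_mul_left ?_ (pow_pos hB 2)
    linarith
  obtain ⟨P, hP, hP0, hmain⟩ := Lemma.normalised ha hlow' h4'
  rw [e1, e2, mul_pow, sq_sqrt hB.le]
  have hm := mul_le_mul_of_nonneg_left hmain hB.le
  refine ⟨by nlinarith [mul_nonneg hB.le hP0], fun h => ?_⟩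
  have hP' : P = 0 := by nlinarith [mul_nonneg hB.le hP0]
  rw [hcongr fun z x => x - B * (1 - z ^ 2)]
  simp only [← mul_sub, intervalIntegral.integral_const_mul, ← hP, hP', mul_zero]

end Vale.Agent.P237.Full
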