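import Mathlib

/-!
# P237: certificates, first branch
-/

namespace Vale.Agent.P237.Full.Lemma

/-- The certified polynomial below the diagonal branch. -/
noncomputable def poly1 (s g : ℝ) : ℝ :=
  (27/40 - 10/13 * (1 - s^2) + ((s + g)^2 - s^2)/3 + 4/9)
      * (1 + (s + g + s) * (129/2000 * ((s + g)^2 + 5 * s^2 - 4) - 121/200))
    + (s + g + s) * (82/375) * ((s + g)^2 - s^2)
      * (27/40 - 10/13 * (1 - s^2) + ((s + g)^2 - s^2)/3)

theorem box1_0 {s g : ℝ} (h1 : 0 ≤ s) (h2 : s ≤ 1) (h3 : 1 ≤ g) (h4 : g ≤ 2) :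
    0 ≤ poly1 s g := by
  have hu : 0 ≤ (s - 0) := by linarith
  have hv : 0 ≤ (1 - s) := by linarith
  have hx : 0 ≤ (g - 1) := by linarith
  have hy : 0 ≤ (2 - g) := by linarith
  have e : poly1 s g
      = (1778573/9360000) * (1 - s) ^ 5 * (2 - g) ^ 5
        + (2174843/2340000) * (1 - s) ^ 5 * (g - 1) * (2 - g) ^ 4
        + (20944579/9360000) * (1 - s) ^ 5 * (g - 1) ^ 2 * (2 - g) ^ 3
        + (5764007/1560000) * (1 - s) ^ 5 * (g - 1) ^ 3 * (2 - g) ^ 2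
        + (407293/104000) * (1 - s) ^ 5 * (g - 1) ^ 4 * (2 - g)
        + (4244897/2340000) * (1 - s) ^ 5 * (g - 1) ^ 5
        + (815989/1872000) * (s - 0) * (1 - s) ^ 4 * (2 - g) ^ 5
        + (2123653/780000) * (s - 0) * (1 - s) ^ 4 * (g - 1) * (2 - g) ^ 4
        + (33969769/3120000) * (s - 0) * (1 - s) ^ 4 * (g - 1) ^ 2 * (2 - g) ^ 3
        + (24563191/936000) * (s - 0) * (1 - s) ^ 4 * (g - 1) ^ 3 * (2 - g) ^ 2
        + (147229699/4680000) * (s - 0) * (1 - s) ^ 4 * (g - 1) ^ 4 * (2 - g)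
        + (4179697/292500) * (s - 0) * (1 - s) ^ 4 * (g - 1) ^ 5
        + (54737/130000) * (s - 0) ^ 2 * (1 - s) ^ 3 * (2 - g) ^ 5
        + (1305379/180000) * (s - 0) ^ 2 * (1 - s) ^ 3 * (g - 1) * (2 - g) ^ 4
        + (198708817/4680000) * (s - 0) ^ 2 * (1 - s) ^ 3 * (g - 1) ^ 2 * (2 - g) ^ 3
        + (246163861/2340000) * (s - 0) ^ 2 * (1 - s) ^ 3 * (g - 1) ^ 3 * (2 - g) ^ 2
        + (547124509/4680000) * (s - 0) ^ 2 * (1 - s) ^ 3 * (g - 1) ^ 4 * (2 - g)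
        + (37658947/780000) * (s - 0) ^ 2 * (1 - s) ^ 3 * (g - 1) ^ 5
        + (1911503/1170000) * (s - 0) ^ 3 * (1 - s) ^ 2 * (2 - g) ^ 5
        + (28581161/1170000) * (s - 0) ^ 3 * (1 - s) ^ 2 * (g - 1) * (2 - g) ^ 4
        + (11914953/104000) * (s - 0) ^ 3 * (1 - s) ^ 2 * (g - 1) ^ 2 * (2 - g) ^ 3
        + (557108753/2340000) * (s - 0) ^ 3 * (1 - s) ^ 2 * (g - 1) ^ 3 * (2 - g) ^ 2
        + (1076974513/4680000) * (s - 0) ^ 3 * (1 - s) ^ 2 * (g - 1) ^ 4 * (2 - g)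
        + (19833433/234000) * (s - 0) ^ 3 * (1 - s) ^ 2 * (g - 1) ^ 5
        + (13986377/3120000) * (s - 0) ^ 4 * (1 - s) * (2 - g) ^ 5
        + (25420381/585000) * (s - 0) ^ 4 * (1 - s) * (g - 1) * (2 - g) ^ 4
        + (1476152011/9360000) * (s - 0) ^ 4 * (1 - s) * (g - 1) ^ 2 * (2 - g) ^ 3
        + (1282426441/4680000) * (s - 0) ^ 4 * (1 - s) * (g - 1) ^ 3 * (2 - g) ^ 2
        + (12009161/52000) * (s - 0) ^ 4 * (1 - s) * (g - 1) ^ 4 * (2 - g)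
        + (4948601/65000) * (s - 0) ^ 4 * (1 - s) * (g - 1) ^ 5
        + (2606123/720000) * (s - 0) ^ 5 * (2 - g) ^ 5
        + (1647667/60000) * (s - 0) ^ 5 * (g - 1) * (2 - g) ^ 4
        + (59691319/720000) * (s - 0) ^ 5 * (g - 1) ^ 2 * (2 - g) ^ 3
        + (14945557/120000) * (s - 0) ^ 5 * (g - 1) ^ 3 * (2 - g) ^ 2
        + (8384711/90000) * (s - 0) ^ 5 * (g - 1) ^ 4 * (2 - g)
        + (1249859/45000) * (s - 0) ^ 5 * (g - 1) ^ 5 := by
    unfold poly1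
    ring
  rw [e]
  lift (s - 0) to NNReal using hu with u
  lift (1 - s) to NNReal using hv with v
  lift (g - 1) to NNReal using hx with x
  lift (2 - g) to NNReal using hy with y
  positivity

theorem box1_1 {s g : ℝ} (h1 : (1/2) ≤ s) (h2 : s ≤ 1) (h3 : (1/2) ≤ g) (h4 : g ≤ 1) :
    0 ≤ poly1 s g := by
  have hu : 0 ≤ (s - (1/2)) := by linarith
  have hv : 0 ≤ (1 - s) := by linarith
  have hx : 0 ≤ (g - (1/2)) := by linarith
  have hy : 0 ≤ (1 - g) := by linarith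
  have e : poly1 s g
      = (1853383/73125) * (1 - s) ^ 5 * (1 - g) ^ 5
        + (1723364/14625) * (1 - s) ^ 5 * (g - (1/2)) * (1 - g) ^ 4
        + (9671573/24375) * (1 - s) ^ 5 * (g - (1/2)) ^ 2 * (1 - g) ^ 3
        + (62174654/73125) * (1 - s) ^ 5 * (g - (1/2)) ^ 3 * (1 - g) ^ 2
        + (64935086/73125) * (1 - s) ^ 5 * (g - (1/2)) ^ 4 * (1 - g)
        + (1940968/5625) * (1 - s) ^ 5 * (g - (1/2)) ^ 5
        + (152917/4875) * (s - (1/2)) * (1 - s) ^ 4 * (1 - g) ^ 5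
        + (39947824/73125) * (s - (1/2)) * (1 - s) ^ 4 * (g - (1/2)) * (1 - g) ^ 4
        + (235327039/73125) * (s - (1/2)) * (1 - s) ^ 4 * (g - (1/2)) ^ 2 * (1 - g) ^ 3
        + (542944538/73125) * (s - (1/2)) * (1 - s) ^ 4 * (g - (1/2)) ^ 3 * (1 - g) ^ 2
        + (7222714/975) * (s - (1/2)) * (1 - s) ^ 4 * (g - (1/2)) ^ 4 * (1 - g)
        + (65845444/24375) * (s - (1/2)) * (1 - s) ^ 4 * (g - (1/2)) ^ 5
        + (3164152/14625) * (s - (1/2)) ^ 2 * (1 - s) ^ 3 * (1 - g) ^ 5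
        + (1102232/325) * (s - (1/2)) ^ 2 * (1 - s) ^ 3 * (g - (1/2)) * (1 - g) ^ 4
        + (1122307282/73125) * (s - (1/2)) ^ 2 * (1 - s) ^ 3 * (g - (1/2)) ^ 2 * (1 - g) ^ 3
        + (724151212/24375) * (s - (1/2)) ^ 2 * (1 - s) ^ 3 * (g - (1/2)) ^ 3 * (1 - g) ^ 2
        + (1920487006/73125) * (s - (1/2)) ^ 2 * (1 - s) ^ 3 * (g - (1/2)) ^ 4 * (1 - g)
        + (640367912/73125) * (s - (1/2)) ^ 2 * (1 - s) ^ 3 * (g - (1/2)) ^ 5
        + (25686704/24375) * (s - (1/2)) ^ 3 * (1 - s) ^ 2 * (1 - g) ^ 5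
        + (18985084/1875) * (s - (1/2)) ^ 3 * (1 - s) ^ 2 * (g - (1/2)) * (1 - g) ^ 4
        + (2601576362/73125) * (s - (1/2)) ^ 3 * (1 - s) ^ 2 * (g - (1/2)) ^ 2 * (1 - g) ^ 3
        + (171981268/2925) * (s - (1/2)) ^ 3 * (1 - s) ^ 2 * (g - (1/2)) ^ 3 * (1 - g) ^ 2
        + (3402953878/73125) * (s - (1/2)) ^ 3 * (1 - s) ^ 2 * (g - (1/2)) ^ 4 * (1 - g)
        + (347949692/24375) * (s - (1/2)) ^ 3 * (1 - s) ^ 2 * (g - (1/2)) ^ 5
        + (117474889/73125) * (s - (1/2)) ^ 4 * (1 - s) * (1 - g) ^ 5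
        + (912024188/73125) * (s - (1/2)) ^ 4 * (1 - s) * (g - (1/2)) * (1 - g) ^ 4
        + (2757325199/73125) * (s - (1/2)) ^ 4 * (1 - s) * (g - (1/2)) ^ 2 * (1 - g) ^ 3
        + (104496226/1875) * (s - (1/2)) ^ 4 * (1 - s) * (g - (1/2)) ^ 3 * (1 - g) ^ 2
        + (2956901068/73125) * (s - (1/2)) ^ 4 * (1 - s) * (g - (1/2)) ^ 4 * (1 - g)
        + (845428504/73125) * (s - (1/2)) ^ 4 * (1 - s) * (g - (1/2)) ^ 5
        + (879821/1125) * (s - (1/2)) ^ 5 * (1 - g) ^ 5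
        + (30403316/5625) * (s - (1/2)) ^ 5 * (g - (1/2)) * (1 - g) ^ 4
        + (27837841/1875) * (s - (1/2)) ^ 5 * (g - (1/2)) ^ 2 * (1 - g) ^ 3
        + (113956682/5625) * (s - (1/2)) ^ 5 * (g - (1/2)) ^ 3 * (1 - g) ^ 2
        + (8586596/625) * (s - (1/2)) ^ 5 * (g - (1/2)) ^ 4 * (1 - g)
        + (20848984/5625) * (s - (1/2)) ^ 5 * (g - (1/2)) ^ 5 := by
    unfold poly1
    ring
  rw [e]
  lift (s - (1/2)) to NNReal using hu with u
  lift (1 - s) to NNReal using hv with v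
  lift (g - (1/2)) to NNReal using hx with x
  lift (1 - g) to NNReal using hy with y
  positivity

theorem box1_2 {s g : ℝ} (h1 : (3/4) ≤ s) (h2 : s ≤ 1) (h3 : (1/4) ≤ g) (h4 : g ≤ (1/2)) :
    0 ≤ poly1 s g := by
  have hu : 0 ≤ (s - (3/4)) := by linarith
  have hv : 0 ≤ (1 - s) := by linarith
  have hx : 0 ≤ (g - (1/4)) := by linarith
  have hy : 0 ≤ ((1/2) - g) := by linarith
  have e : poly1 s g
      = (525982144/73125) * (1 - s) ^ 5 * ((1/2) - g) ^ 5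
        + (4774121728/73125) * (1 - s) ^ 5 * (g - (1/4)) * ((1/2) - g) ^ 4
        + (18456616832/73125) * (1 - s) ^ 5 * (g - (1/4)) ^ 2 * ((1/2) - g) ^ 3
        + (11073096448/24375) * (1 - s) ^ 5 * (g - (1/4)) ^ 3 * ((1/2) - g) ^ 2
        + (9232621568/24375) * (1 - s) ^ 5 * (g - (1/4)) ^ 4 * ((1/2) - g)
        + (668778496/5625) * (1 - s) ^ 5 * (g - (1/4)) ^ 5
        + (5515503424/73125) * (s - (3/4)) * (1 - s) ^ 4 * ((1/2) - g) ^ 5
        + (3413067392/4875) * (s - (3/4)) * (1 - s) ^ 4 * (g - (1/4)) * ((1/2) - g) ^ 4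
        + (59313213568/24375) * (s - (3/4)) * (1 - s) ^ 4 * (g - (1/4)) ^ 2 * ((1/2) - g) ^ 3
        + (288803962112/73125) * (s - (3/4)) * (1 - s) ^ 4 * (g - (1/4)) ^ 3 * ((1/2) - g) ^ 2
        + (221850737152/73125) * (s - (3/4)) * (1 - s) ^ 4 * (g - (1/4)) ^ 4 * ((1/2) - g)
        + (65341247488/73125) * (s - (3/4)) * (1 - s) ^ 4 * (g - (1/4)) ^ 5
        + (9166098304/24375) * (s - (3/4)) ^ 2 * (1 - s) ^ 3 * ((1/2) - g) ^ 5
        + (218554476032/73125) * (s - (3/4)) ^ 2 * (1 - s) ^ 3 * (g - (1/4)) * ((1/2) - g) ^ 4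
        + (668054120704/73125) * (s - (3/4)) ^ 2 * (1 - s) ^ 3 * (g - (1/4)) ^ 2 * ((1/2) - g) ^ 3
        + (196722009088/14625) * (s - (3/4)) ^ 2 * (1 - s) ^ 3 * (g - (1/4)) ^ 3 * ((1/2) - g) ^ 2
        + (701579389696/73125) * (s - (3/4)) ^ 2 * (1 - s) ^ 3 * (g - (1/4)) ^ 4 * ((1/2) - g)
        + (13002530816/4875) * (s - (3/4)) ^ 2 * (1 - s) ^ 3 * (g - (1/4)) ^ 5
        + (59082651008/73125) * (s - (3/4)) ^ 3 * (1 - s) ^ 2 * ((1/2) - g) ^ 5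
        + (420168302336/73125) * (s - (3/4)) ^ 3 * (1 - s) ^ 2 * (g - (1/4)) * ((1/2) - g) ^ 4
        + (130311149312/8125) * (s - (3/4)) ^ 3 * (1 - s) ^ 2 * (g - (1/4)) ^ 2 * ((1/2) - g) ^ 3
        + (1605899550208/73125) * (s - (3/4)) ^ 3 * (1 - s) ^ 2 * (g - (1/4)) ^ 3 * ((1/2) - g) ^ 2
        + (1080538068736/73125) * (s - (3/4)) ^ 3 * (1 - s) ^ 2 * (g - (1/4)) ^ 4 * ((1/2) - g)
        + (286423889408/73125) * (s - (3/4)) ^ 3 * (1 - s) ^ 2 * (g - (1/4)) ^ 5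
        + (18632475712/24375) * (s - (3/4)) ^ 4 * (1 - s) * ((1/2) - g) ^ 5
        + (369687316736/73125) * (s - (3/4)) ^ 4 * (1 - s) * (g - (1/4)) * ((1/2) - g) ^ 4
        + (193873511296/14625) * (s - (3/4)) ^ 4 * (1 - s) * (g - (1/4)) ^ 2 * ((1/2) - g) ^ 3
        + (1258794459904/73125) * (s - (3/4)) ^ 4 * (1 - s) * (g - (1/4)) ^ 3 * ((1/2) - g) ^ 2
        + (269910270464/24375) * (s - (3/4)) ^ 4 * (1 - s) * (g - (1/4)) ^ 4 * ((1/2) - g)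
        + (68849785856/24375) * (s - (3/4)) ^ 4 * (1 - s) * (g - (1/4)) ^ 5
        + (297971264/1125) * (s - (3/4)) ^ 5 * ((1/2) - g) ^ 5
        + (624997504/375) * (s - (3/4)) ^ 5 * (g - (1/4)) * ((1/2) - g) ^ 4
        + (23506471808/5625) * (s - (3/4)) ^ 5 * (g - (1/4)) ^ 2 * ((1/2) - g) ^ 3
        + (9778618112/1875) * (s - (3/4)) ^ 5 * (g - (1/4)) ^ 3 * ((1/2) - g) ^ 2
        + (18218628608/5625) * (s - (3/4)) ^ 5 * (g - (1/4)) ^ 4 * ((1/2) - g)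
        + (900936704/1125) * (s - (3/4)) ^ 5 * (g - (1/4)) ^ 5 := by
    unfold poly1
    ring
  rw [e]
  lift (s - (3/4)) to NNReal using hu with u
  lift (1 - s) to NNReal using hv with v
  lift (g - (1/4)) to NNReal using hx with x
  lift ((1/2) - g) to NNReal using hy with y
  positivity

theorem box1_3 {s g : ℝ} (h1 : (7/8) ≤ s) (h2 : s ≤ 1) (h3 : 0 ≤ g) (h4 : g ≤ (1/4)) :
    0 ≤ poly1 s g := by
  have hu : 0 ≤ (s - (7/8)) := by linarith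
  have hv : 0 ≤ (1 - s) := by linarith
  have hx : 0 ≤ (g - 0) := by linarith
  have hy : 0 ≤ ((1/4) - g) := by linarith
  have e : poly1 s g
      = (19056116224/73125) * (1 - s) ^ 5 * ((1/4) - g) ^ 5
        + (17756377088/14625) * (1 - s) ^ 5 * (g - 0) * ((1/4) - g) ^ 4
        + (282446537728/73125) * (1 - s) ^ 5 * (g - 0) ^ 2 * ((1/4) - g) ^ 3
        + (537684115456/73125) * (1 - s) ^ 5 * (g - 0) ^ 3 * ((1/4) - g) ^ 2
        + (492625166848/73125) * (1 - s) ^ 5 * (g - 0) ^ 4 * ((1/4) - g)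
        + (167887990784/73125) * (1 - s) ^ 5 * (g - 0) ^ 5
        + (113610317824/73125) * (s - (7/8)) * (1 - s) ^ 4 * ((1/4) - g) ^ 5
        + (78739990016/8125) * (s - (7/8)) * (1 - s) ^ 4 * (g - 0) * ((1/4) - g) ^ 4
        + (472072054784/14625) * (s - (7/8)) * (1 - s) ^ 4 * (g - 0) ^ 2 * ((1/4) - g) ^ 3
        + (4140005610496/73125) * (s - (7/8)) * (1 - s) ^ 4 * (g - 0) ^ 3 * ((1/4) - g) ^ 2
        + (387771656192/8125) * (s - (7/8)) * (1 - s) ^ 4 * (g - 0) ^ 4 * ((1/4) - g)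
        + (372126943744/24375) * (s - (7/8)) * (1 - s) ^ 4 * (g - 0) ^ 5
        + (181307392/39) * (s - (7/8)) ^ 2 * (1 - s) ^ 3 * ((1/4) - g) ^ 5
        + (2385349148672/73125) * (s - (7/8)) ^ 2 * (1 - s) ^ 3 * (g - 0) * ((1/4) - g) ^ 4
        + (2541284046848/24375) * (s - (7/8)) ^ 2 * (1 - s) ^ 3 * (g - 0) ^ 2 * ((1/4) - g) ^ 3
        + (822282610688/4875) * (s - (7/8)) ^ 2 * (1 - s) ^ 3 * (g - 0) ^ 3 * ((1/4) - g) ^ 2
        + (745290125312/5625) * (s - (7/8)) ^ 2 * (1 - s) ^ 3 * (g - 0) ^ 4 * ((1/4) - g)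
        + (225788348416/5625) * (s - (7/8)) ^ 2 * (1 - s) ^ 3 * (g - 0) ^ 5
        + (109107003392/14625) * (s - (7/8)) ^ 3 * (1 - s) ^ 2 * ((1/4) - g) ^ 5
        + (3882880817152/73125) * (s - (7/8)) ^ 3 * (1 - s) ^ 2 * (g - 0) * ((1/4) - g) ^ 4
        + (902352379904/5625) * (s - (7/8)) ^ 3 * (1 - s) ^ 2 * (g - 0) ^ 2 * ((1/4) - g) ^ 3
        + (17751660273664/73125) * (s - (7/8)) ^ 3 * (1 - s) ^ 2 * (g - 0) ^ 3 * ((1/4) - g) ^ 2
        + (2633398575104/14625) * (s - (7/8)) ^ 3 * (1 - s) ^ 2 * (g - 0) ^ 4 * ((1/4) - g)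
        + (1270276483072/24375) * (s - (7/8)) ^ 3 * (1 - s) ^ 2 * (g - 0) ^ 5
        + (431937028096/73125) * (s - (7/8)) ^ 4 * (1 - s) * ((1/4) - g) ^ 5
        + (1002832887808/24375) * (s - (7/8)) ^ 4 * (1 - s) * (g - 0) * ((1/4) - g) ^ 4
        + (2878475689984/24375) * (s - (7/8)) ^ 4 * (1 - s) * (g - 0) ^ 2 * ((1/4) - g) ^ 3
        + (12389322821632/73125) * (s - (7/8)) ^ 4 * (1 - s) * (g - 0) ^ 3 * ((1/4) - g) ^ 2
        + (974792882176/8125) * (s - (7/8)) ^ 4 * (1 - s) * (g - 0) ^ 4 * ((1/4) - g)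
        + (2443809406976/73125) * (s - (7/8)) ^ 4 * (1 - s) * (g - 0) ^ 5
        + (3380609024/1875) * (s - (7/8)) ^ 5 * ((1/4) - g) ^ 5
        + (13712490496/1125) * (s - (7/8)) ^ 5 * (g - 0) * ((1/4) - g) ^ 4
        + (188556181504/5625) * (s - (7/8)) ^ 5 * (g - 0) ^ 2 * ((1/4) - g) ^ 3
        + (28803641344/625) * (s - (7/8)) ^ 5 * (g - 0) ^ 3 * ((1/4) - g) ^ 2
        + (35351044096/1125) * (s - (7/8)) ^ 5 * (g - 0) ^ 4 * ((1/4) - g)
        + (9535080448/1125) * (s - (7/8)) ^ 5 * (g - 0) ^ 5 := by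
    unfold poly1
    ring
  rw [e]
  lift (s - (7/8)) to NNReal using hu with u
  lift (1 - s) to NNReal using hv with v
  lift (g - 0) to NNReal using hx with x
  lift ((1/4) - g) to NNReal using hy with y
  positivity

theorem box1_4 {s g : ℝ} (h1 : (3/4) ≤ s) (h2 : s ≤ (7/8)) (h3 : (1/8) ≤ g) (h4 : g ≤ (1/4)) :
    0 ≤ poly1 s g := by
  have hu : 0 ≤ (s - (3/4)) := by linarith
  have hv : 0 ≤ ((7/8) - s) := by linarith
  have hx : 0 ≤ (g - (1/8)) := by linarith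
  have hy : 0 ≤ ((1/4) - g) := by linarith
  have e : poly1 s g
      = (475658401792/73125) * ((7/8) - s) ^ 5 * ((1/4) - g) ^ 5
        + (20589572096/975) * ((7/8) - s) ^ 5 * (g - (1/8)) * ((1/4) - g) ^ 4
        + (729722355712/24375) * ((7/8) - s) ^ 5 * (g - (1/8)) ^ 2 * ((1/4) - g) ^ 3
        + (2177420558336/73125) * ((7/8) - s) ^ 5 * (g - (1/8)) ^ 3 * ((1/4) - g) ^ 2
        + (1595192541184/73125) * ((7/8) - s) ^ 5 * (g - (1/8)) ^ 4 * ((1/4) - g)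
        + (538605715456/73125) * ((7/8) - s) ^ 5 * (g - (1/8)) ^ 5
        + (207808512/13) * (s - (3/4)) * ((7/8) - s) ^ 4 * ((1/4) - g) ^ 5
        + (3796767973376/73125) * (s - (3/4)) * ((7/8) - s) ^ 4 * (g - (1/8)) * ((1/4) - g) ^ 4
        + (7857182703616/73125) * (s - (3/4)) * ((7/8) - s) ^ 4 * (g - (1/8)) ^ 2 * ((1/4) - g) ^ 3
        + (1009334779904/5625) * (s - (3/4)) * ((7/8) - s) ^ 4 * (g - (1/8)) ^ 3 * ((1/4) - g) ^ 2
        + (2412267143168/14625) * (s - (3/4)) * ((7/8) - s) ^ 4 * (g - (1/8)) ^ 4 * ((1/4) - g)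
        + (463383560192/8125) * (s - (3/4)) * ((7/8) - s) ^ 4 * (g - (1/8)) ^ 5
        + (347890610176/14625) * (s - (3/4)) ^ 2 * ((7/8) - s) ^ 3 * ((1/4) - g) ^ 5
        + (1931578728448/14625) * (s - (3/4)) ^ 2 * ((7/8) - s) ^ 3 * (g - (1/8)) * ((1/4) - g) ^ 4
        + (2391434346496/5625) * (s - (3/4)) ^ 2 * ((7/8) - s) ^ 3 * (g - (1/8)) ^ 2 * ((1/4) - g) ^ 3
        + (18031652569088/24375) * (s - (3/4)) ^ 2 * ((7/8) - s) ^ 3 * (g - (1/8)) ^ 3 * ((1/4) - g) ^ 2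
        + (384243105792/625) * (s - (3/4)) ^ 2 * ((7/8) - s) ^ 3 * (g - (1/8)) ^ 4 * ((1/4) - g)
        + (14033953292288/73125) * (s - (3/4)) ^ 2 * ((7/8) - s) ^ 3 * (g - (1/8)) ^ 5
        + (1138329890816/24375) * (s - (3/4)) ^ 3 * ((7/8) - s) ^ 2 * ((1/4) - g) ^ 5
        + (24010337337344/73125) * (s - (3/4)) ^ 3 * ((7/8) - s) ^ 2 * (g - (1/8)) * ((1/4) - g) ^ 4
        + (72984150376448/73125) * (s - (3/4)) ^ 3 * ((7/8) - s) ^ 2 * (g - (1/8)) ^ 2 * ((1/4) - g) ^ 3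
        + (22105040371712/14625) * (s - (3/4)) ^ 3 * ((7/8) - s) ^ 2 * (g - (1/8)) ^ 3 * ((1/4) - g) ^ 2
        + (27055075262464/24375) * (s - (3/4)) ^ 3 * ((7/8) - s) ^ 2 * (g - (1/8)) ^ 4 * ((1/4) - g)
        + (2559009816576/8125) * (s - (3/4)) ^ 3 * ((7/8) - s) ^ 2 * (g - (1/8)) ^ 5
        + (3955856275456/73125) * (s - (3/4)) ^ 4 * ((7/8) - s) * ((1/4) - g) ^ 5
        + (8917065478144/24375) * (s - (3/4)) ^ 4 * ((7/8) - s) * (g - (1/8)) * ((1/4) - g) ^ 4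
        + (73669772312576/73125) * (s - (3/4)) ^ 4 * ((7/8) - s) * (g - (1/8)) ^ 2 * ((1/4) - g) ^ 3
        + (33618808963072/24375) * (s - (3/4)) ^ 4 * ((7/8) - s) * (g - (1/8)) ^ 3 * ((1/4) - g) ^ 2
        + (67980834332672/73125) * (s - (3/4)) ^ 4 * ((7/8) - s) * (g - (1/8)) ^ 4 * ((1/4) - g)
        + (17999970451456/73125) * (s - (3/4)) ^ 4 * ((7/8) - s) * (g - (1/8)) ^ 5
        + (317696362496/14625) * (s - (3/4)) ^ 5 * ((1/4) - g) ^ 5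
        + (10153335857152/73125) * (s - (3/4)) ^ 5 * (g - (1/8)) * ((1/4) - g) ^ 4
        + (8706839724032/24375) * (s - (3/4)) ^ 5 * (g - (1/8)) ^ 2 * ((1/4) - g) ^ 3
        + (33496517525504/73125) * (s - (3/4)) ^ 5 * (g - (1/8)) ^ 3 * ((1/4) - g) ^ 2
        + (21313041932288/73125) * (s - (3/4)) ^ 5 * (g - (1/8)) ^ 4 * ((1/4) - g)
        + (5372415705088/73125) * (s - (3/4)) ^ 5 * (g - (1/8)) ^ 5 := by
    unfold poly1
    ring
  rw [e]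
  lift (s - (3/4)) to NNReal using hu with u
  lift ((7/8) - s) to NNReal using hv with v
  lift (g - (1/8)) to NNReal using hx with x
  lift ((1/4) - g) to NNReal using hy with y
  positivity

theorem box1_5 {s g : ℝ} (h1 : (3/4) ≤ s) (h2 : s ≤ (7/8)) (h3 : 0 ≤ g) (h4 : g ≤ (1/8)) :
    0 ≤ poly1 s g := by
  have hu : 0 ≤ (s - (3/4)) := by linarith
  have hv : 0 ≤ ((7/8) - s) := by linarith
  have hx : 0 ≤ (g - 0) := by linarith
  have hy : 0 ≤ ((1/8) - g) := by linarith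
  have e : poly1 s g
      = (78760640512/2925) * ((7/8) - s) ^ 5 * ((1/8) - g) ^ 5
        + (7793214226432/73125) * ((7/8) - s) ^ 5 * (g - 0) * ((1/8) - g) ^ 4
        + (796601614336/4875) * ((7/8) - s) ^ 5 * (g - 0) ^ 2 * ((1/8) - g) ^ 3
        + (8861759881216/73125) * ((7/8) - s) ^ 5 * (g - 0) ^ 3 * ((1/8) - g) ^ 2
        + (49421017088/1125) * ((7/8) - s) ^ 5 * (g - 0) ^ 4 * ((1/8) - g)
        + (475658401792/73125) * ((7/8) - s) ^ 5 * (g - 0) ^ 5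
        + (2327172349952/24375) * (s - (3/4)) * ((7/8) - s) ^ 4 * ((1/8) - g) ^ 5
        + (1990721142784/5625) * (s - (3/4)) * ((7/8) - s) ^ 4 * (g - 0) * ((1/8) - g) ^ 4
        + (7282628624384/14625) * (s - (3/4)) * ((7/8) - s) ^ 4 * (g - 0) ^ 2 * ((1/8) - g) ^ 3
        + (8079984705536/24375) * (s - (3/4)) * ((7/8) - s) ^ 4 * (g - 0) ^ 3 * ((1/8) - g) ^ 2
        + (7892460826624/73125) * (s - (3/4)) * ((7/8) - s) ^ 4 * (g - 0) ^ 4 * ((1/8) - g)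
        + (207808512/13) * (s - (3/4)) * ((7/8) - s) ^ 4 * (g - 0) ^ 5
        + (9344474021888/73125) * (s - (3/4)) ^ 2 * ((7/8) - s) ^ 3 * ((1/8) - g) ^ 5
        + (10581339373568/24375) * (s - (3/4)) ^ 2 * ((7/8) - s) ^ 3 * (g - 0) * ((1/8) - g) ^ 4
        + (39803717976064/73125) * (s - (3/4)) ^ 2 * ((7/8) - s) ^ 3 * (g - 0) ^ 2 * ((1/8) - g) ^ 3
        + (23403619401728/73125) * (s - (3/4)) ^ 2 * ((7/8) - s) ^ 3 * (g - 0) ^ 3 * ((1/8) - g) ^ 2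
        + (515775791104/4875) * (s - (3/4)) ^ 2 * ((7/8) - s) ^ 3 * (g - 0) ^ 4 * ((1/8) - g)
        + (347890610176/14625) * (s - (3/4)) ^ 2 * ((7/8) - s) ^ 3 * (g - 0) ^ 5
        + (6186030923776/73125) * (s - (3/4)) ^ 3 * ((7/8) - s) ^ 2 * ((1/8) - g) ^ 5
        + (3948520374272/14625) * (s - (3/4)) ^ 3 * ((7/8) - s) ^ 2 * (g - 0) * ((1/8) - g) ^ 4
        + (24330778099712/73125) * (s - (3/4)) ^ 3 * ((7/8) - s) ^ 2 * (g - 0) ^ 2 * ((1/8) - g) ^ 3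
        + (17501038575616/73125) * (s - (3/4)) ^ 3 * ((7/8) - s) ^ 2 * (g - 0) ^ 3 * ((1/8) - g) ^ 2
        + (10139559387136/73125) * (s - (3/4)) ^ 3 * ((7/8) - s) ^ 2 * (g - 0) ^ 4 * ((1/8) - g)
        + (1138329890816/24375) * (s - (3/4)) ^ 3 * ((7/8) - s) ^ 2 * (g - 0) ^ 5
        + (273603002368/8125) * (s - (3/4)) ^ 4 * ((7/8) - s) * ((1/8) - g) ^ 5
        + (694046973952/5625) * (s - (3/4)) ^ 4 * ((7/8) - s) * (g - 0) * ((1/8) - g) ^ 4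
        + (15601994596352/73125) * (s - (3/4)) ^ 4 * ((7/8) - s) * (g - 0) ^ 2 * ((1/8) - g) ^ 3
        + (1192963457024/4875) * (s - (3/4)) ^ 4 * ((7/8) - s) * (g - 0) ^ 3 * ((1/8) - g) ^ 2
        + (12807366320128/73125) * (s - (3/4)) ^ 4 * ((7/8) - s) * (g - 0) ^ 4 * ((1/8) - g)
        + (3955856275456/73125) * (s - (3/4)) ^ 4 * ((7/8) - s) * (g - 0) ^ 5
        + (609795719168/73125) * (s - (3/4)) ^ 5 * ((1/8) - g) ^ 5
        + (196333297664/4875) * (s - (3/4)) ^ 5 * (g - 0) * ((1/8) - g) ^ 4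
        + (2208360644608/24375) * (s - (3/4)) ^ 5 * (g - 0) ^ 2 * ((1/8) - g) ^ 3
        + (1686620962816/14625) * (s - (3/4)) ^ 5 * (g - 0) ^ 3 * ((1/8) - g) ^ 2
        + (636831363072/8125) * (s - (3/4)) ^ 5 * (g - 0) ^ 4 * ((1/8) - g)
        + (317696362496/14625) * (s - (3/4)) ^ 5 * (g - 0) ^ 5 := by
    unfold poly1
    ring
  rw [e]
  lift (s - (3/4)) to NNReal using hu with u
  lift ((7/8) - s) to NNReal using hv with v
  lift (g - 0) to NNReal using hx with x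
  lift ((1/8) - g) to NNReal using hy with y
  positivity

theorem box1_6 {s g : ℝ} (h1 : (5/8) ≤ s) (h2 : s ≤ (3/4)) (h3 : (1/4) ≤ g) (h4 : g ≤ (1/2)) :
    0 ≤ poly1 s g := by
  have hu : 0 ≤ (s - (5/8)) := by linarith
  have hv : 0 ≤ ((3/4) - s) := by linarith
  have hx : 0 ≤ (g - (1/4)) := by linarith
  have hy : 0 ≤ ((1/2) - g) := by linarith
  have e : poly1 s g
      = (3084010496/5625) * ((3/4) - s) ^ 5 * ((1/2) - g) ^ 5
        + (1024600576/625) * ((3/4) - s) ^ 5 * (g - (1/4)) * ((1/2) - g) ^ 4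
        + (12047976448/5625) * ((3/4) - s) ^ 5 * (g - (1/4)) ^ 2 * ((1/2) - g) ^ 3
        + (4578434048/1875) * ((3/4) - s) ^ 5 * (g - (1/4)) ^ 3 * ((1/2) - g) ^ 2
        + (525607936/225) * ((3/4) - s) ^ 5 * (g - (1/4)) ^ 4 * ((1/2) - g)
        + (5332875776/5625) * ((3/4) - s) ^ 5 * (g - (1/4)) ^ 5
        + (2720172544/1625) * (s - (5/8)) * ((3/4) - s) ^ 4 * ((1/2) - g) ^ 5
        + (307996960768/73125) * (s - (5/8)) * ((3/4) - s) ^ 4 * (g - (1/4)) * ((1/2) - g) ^ 4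
        + (454950747136/73125) * (s - (5/8)) * ((3/4) - s) ^ 4 * (g - (1/4)) ^ 2 * ((1/2) - g) ^ 3
        + (177541064704/14625) * (s - (5/8)) * ((3/4) - s) ^ 4 * (g - (1/4)) ^ 3 * ((1/2) - g) ^ 2
        + (117089225216/8125) * (s - (5/8)) * ((3/4) - s) ^ 4 * (g - (1/4)) ^ 4 * ((1/2) - g)
        + (145530036224/24375) * (s - (5/8)) * ((3/4) - s) ^ 4 * (g - (1/4)) ^ 5
        + (130319988736/73125) * (s - (5/8)) ^ 2 * ((3/4) - s) ^ 3 * ((1/2) - g) ^ 5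
        + (285001043968/73125) * (s - (5/8)) ^ 2 * ((3/4) - s) ^ 3 * (g - (1/4)) * ((1/2) - g) ^ 4
        + (95214528512/8125) * (s - (5/8)) ^ 2 * ((3/4) - s) ^ 3 * (g - (1/4)) ^ 2 * ((1/2) - g) ^ 3
        + (2481540110336/73125) * (s - (5/8)) ^ 2 * ((3/4) - s) ^ 3 * (g - (1/4)) ^ 3 * ((1/2) - g) ^ 2
        + (117145616384/2925) * (s - (5/8)) ^ 2 * ((3/4) - s) ^ 3 * (g - (1/4)) ^ 4 * ((1/2) - g)
        + (230322341888/14625) * (s - (5/8)) ^ 2 * ((3/4) - s) ^ 3 * (g - (1/4)) ^ 5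
        + (591497216/625) * (s - (5/8)) ^ 3 * ((3/4) - s) ^ 2 * ((1/2) - g) ^ 5
        + (270986407936/73125) * (s - (5/8)) ^ 3 * ((3/4) - s) ^ 2 * (g - (1/4)) * ((1/2) - g) ^ 4
        + (1550991577088/73125) * (s - (5/8)) ^ 3 * ((3/4) - s) ^ 2 * (g - (1/4)) ^ 2 * ((1/2) - g) ^ 3
        + (4061588328448/73125) * (s - (5/8)) ^ 3 * ((3/4) - s) ^ 2 * (g - (1/4)) ^ 3 * ((1/2) - g) ^ 2
        + (4257426937856/73125) * (s - (5/8)) ^ 3 * ((3/4) - s) ^ 2 * (g - (1/4)) ^ 4 * ((1/2) - g)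
        + (171923406848/8125) * (s - (5/8)) ^ 3 * ((3/4) - s) ^ 2 * (g - (1/4)) ^ 5
        + (37987659776/73125) * (s - (5/8)) ^ 4 * ((3/4) - s) * ((1/2) - g) ^ 5
        + (21776869376/4875) * (s - (5/8)) ^ 4 * ((3/4) - s) * (g - (1/4)) * ((1/2) - g) ^ 4
        + (175839309824/8125) * (s - (5/8)) ^ 4 * ((3/4) - s) * (g - (1/4)) ^ 2 * ((1/2) - g) ^ 3
        + (3351766048768/73125) * (s - (5/8)) ^ 4 * ((3/4) - s) * (g - (1/4)) ^ 3 * ((1/2) - g) ^ 2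
        + (3097875734528/73125) * (s - (5/8)) ^ 4 * ((3/4) - s) * (g - (1/4)) ^ 4 * ((1/2) - g)
        + (1041128947712/73125) * (s - (5/8)) ^ 4 * ((3/4) - s) * (g - (1/4)) ^ 5
        + (16831428608/73125) * (s - (5/8)) ^ 5 * ((1/2) - g) ^ 5
        + (152771895296/73125) * (s - (5/8)) ^ 5 * (g - (1/4)) * ((1/2) - g) ^ 4
        + (590611738624/73125) * (s - (5/8)) ^ 5 * (g - (1/4)) ^ 2 * ((1/2) - g) ^ 3
        + (354339086336/24375) * (s - (5/8)) ^ 5 * (g - (1/4)) ^ 3 * ((1/2) - g) ^ 2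
        + (295443890176/24375) * (s - (5/8)) ^ 5 * (g - (1/4)) ^ 4 * ((1/2) - g)
        + (21400911872/5625) * (s - (5/8)) ^ 5 * (g - (1/4)) ^ 5 := by
    unfold poly1
    ring
  rw [e]
  lift (s - (5/8)) to NNReal using hu with u
  lift ((3/4) - s) to NNReal using hv with v
  lift (g - (1/4)) to NNReal using hx with x
  lift ((1/2) - g) to NNReal using hy with y
  positivity

theorem box1_7 {s g : ℝ} (h1 : (1/2) ≤ s) (h2 : s ≤ (5/8)) (h3 : (1/4) ≤ g) (h4 : g ≤ (1/2)) :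
    0 ≤ poly1 s g := by
  have hu : 0 ≤ (s - (1/2)) := by linarith
  have hv : 0 ≤ ((5/8) - s) := by linarith
  have hx : 0 ≤ (g - (1/4)) := by linarith
  have hy : 0 ≤ ((1/2) - g) := by linarith
  have e : poly1 s g
      = (5972289536/2925) * ((5/8) - s) ^ 5 * ((1/2) - g) ^ 5
        + (120950018048/14625) * ((5/8) - s) ^ 5 * (g - (1/4)) * ((1/2) - g) ^ 4
        + (958721830912/73125) * ((5/8) - s) ^ 5 * (g - (1/4)) ^ 2 * ((1/2) - g) ^ 3
        + (252360974336/24375) * ((5/8) - s) ^ 5 * (g - (1/4)) ^ 3 * ((1/2) - g) ^ 2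
        + (12572377088/2925) * ((5/8) - s) ^ 5 * (g - (1/4)) ^ 4 * ((1/2) - g)
        + (60731654144/73125) * ((5/8) - s) ^ 5 * (g - (1/4)) ^ 5
        + (109391872/13) * (s - (1/2)) * ((5/8) - s) ^ 4 * ((1/2) - g) ^ 5
        + (799026194432/24375) * (s - (1/2)) * ((5/8) - s) ^ 4 * (g - (1/4)) * ((1/2) - g) ^ 4
        + (3633228156928/73125) * (s - (1/2)) * ((5/8) - s) ^ 4 * (g - (1/4)) ^ 2 * ((1/2) - g) ^ 3
        + (2762037936128/73125) * (s - (1/2)) * ((5/8) - s) ^ 4 * (g - (1/4)) ^ 3 * ((1/2) - g) ^ 2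
        + (1155962372096/73125) * (s - (1/2)) * ((5/8) - s) ^ 4 * (g - (1/4)) ^ 4 * ((1/2) - g)
        + (657424384/195) * (s - (1/2)) * ((5/8) - s) ^ 4 * (g - (1/4)) ^ 5
        + (982299326464/73125) * (s - (1/2)) ^ 2 * ((5/8) - s) ^ 3 * ((1/2) - g) ^ 5
        + (145494167552/2925) * (s - (1/2)) ^ 2 * ((5/8) - s) ^ 3 * (g - (1/4)) * ((1/2) - g) ^ 4
        + (577963393024/8125) * (s - (1/2)) ^ 2 * ((5/8) - s) ^ 3 * (g - (1/4)) ^ 2 * ((1/2) - g) ^ 3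
        + (3807438798848/73125) * (s - (1/2)) ^ 2 * ((5/8) - s) ^ 3 * (g - (1/4)) ^ 3 * ((1/2) - g) ^ 2
        + (187661023232/8125) * (s - (1/2)) ^ 2 * ((5/8) - s) ^ 3 * (g - (1/4)) ^ 4 * ((1/2) - g)
        + (86077558784/14625) * (s - (1/2)) ^ 2 * ((5/8) - s) ^ 3 * (g - (1/4)) ^ 5
        + (251581110272/24375) * (s - (1/2)) ^ 3 * ((5/8) - s) ^ 2 * ((1/2) - g) ^ 5
        + (2616156053504/73125) * (s - (1/2)) ^ 3 * ((5/8) - s) ^ 2 * (g - (1/4)) * ((1/2) - g) ^ 4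
        + (696454506496/14625) * (s - (1/2)) ^ 3 * ((5/8) - s) ^ 2 * (g - (1/4)) ^ 2 * ((1/2) - g) ^ 3
        + (2522254637056/73125) * (s - (1/2)) ^ 3 * ((5/8) - s) ^ 2 * (g - (1/4)) ^ 3 * ((1/2) - g) ^ 2
        + (443706454016/24375) * (s - (1/2)) ^ 3 * ((5/8) - s) ^ 2 * (g - (1/4)) ^ 4 * ((1/2) - g)
        + (143995414528/24375) * (s - (1/2)) ^ 3 * ((5/8) - s) ^ 2 * (g - (1/4)) ^ 5
        + (445621760/117) * (s - (1/2)) ^ 4 * ((5/8) - s) * ((1/2) - g) ^ 5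
        + (890785713152/73125) * (s - (1/2)) ^ 4 * ((5/8) - s) * (g - (1/4)) * ((1/2) - g) ^ 4
        + (123476243456/8125) * (s - (1/2)) ^ 4 * ((5/8) - s) * (g - (1/4)) ^ 2 * ((1/2) - g) ^ 3
        + (35915358208/2925) * (s - (1/2)) ^ 4 * ((5/8) - s) * (g - (1/4)) ^ 3 * ((1/2) - g) ^ 2
        + (654422765056/73125) * (s - (1/2)) ^ 4 * ((5/8) - s) * (g - (1/4)) ^ 4 * ((1/2) - g)
        + (256683742208/73125) * (s - (1/2)) ^ 4 * ((5/8) - s) * (g - (1/4)) ^ 5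
        + (3084010496/5625) * (s - (1/2)) ^ 5 * ((1/2) - g) ^ 5
        + (1024600576/625) * (s - (1/2)) ^ 5 * (g - (1/4)) * ((1/2) - g) ^ 4
        + (12047976448/5625) * (s - (1/2)) ^ 5 * (g - (1/4)) ^ 2 * ((1/2) - g) ^ 3
        + (4578434048/1875) * (s - (1/2)) ^ 5 * (g - (1/4)) ^ 3 * ((1/2) - g) ^ 2
        + (525607936/225) * (s - (1/2)) ^ 5 * (g - (1/4)) ^ 4 * ((1/2) - g)
        + (5332875776/5625) * (s - (1/2)) ^ 5 * (g - (1/4)) ^ 5 := by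
    unfold poly1
    ring
  rw [e]
  lift (s - (1/2)) to NNReal using hu with u
  lift ((5/8) - s) to NNReal using hv with v
  lift (g - (1/4)) to NNReal using hx with x
  lift ((1/2) - g) to NNReal using hy with y
  positivity

theorem box1_8 {s g : ℝ} (h1 : (5/8) ≤ s) (h2 : s ≤ (3/4)) (h3 : 0 ≤ g) (h4 : g ≤ (1/4)) :
    0 ≤ poly1 s g := by
  have hu : 0 ≤ (s - (5/8)) := by linarith
  have hv : 0 ≤ ((3/4) - s) := by linarith
  have hx : 0 ≤ (g - 0) := by linarith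
  have hy : 0 ≤ ((1/4) - g) := by linarith
  have e : poly1 s g
      = (300799488/125) * ((3/4) - s) ^ 5 * ((1/4) - g) ^ 5
        + (54410580992/5625) * ((3/4) - s) ^ 5 * (g - 0) * ((1/4) - g) ^ 4
        + (83959671808/5625) * ((3/4) - s) ^ 5 * (g - 0) ^ 2 * ((1/4) - g) ^ 3
        + (20545718272/1875) * ((3/4) - s) ^ 5 * (g - 0) ^ 3 * ((1/4) - g) ^ 2
        + (21618699776/5625) * ((3/4) - s) ^ 5 * (g - 0) ^ 4 * ((1/4) - g)
        + (3084010496/5625) * ((3/4) - s) ^ 5 * (g - 0) ^ 5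
        + (748897719296/73125) * (s - (5/8)) * ((3/4) - s) ^ 4 * ((1/4) - g) ^ 5
        + (579821822464/14625) * (s - (5/8)) * ((3/4) - s) ^ 4 * (g - 0) * ((1/4) - g) ^ 4
        + (4242693259264/73125) * (s - (5/8)) * ((3/4) - s) ^ 4 * (g - 0) ^ 2 * ((1/4) - g) ^ 3
        + (2887285640192/73125) * (s - (5/8)) * ((3/4) - s) ^ 4 * (g - 0) ^ 3 * ((1/4) - g) ^ 2
        + (916080684032/73125) * (s - (5/8)) * ((3/4) - s) ^ 4 * (g - 0) ^ 4 * ((1/4) - g)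
        + (2720172544/1625) * (s - (5/8)) * ((3/4) - s) ^ 4 * (g - 0) ^ 5
        + (1245177657344/73125) * (s - (5/8)) ^ 2 * ((3/4) - s) ^ 3 * ((1/4) - g) ^ 5
        + (1530404913152/24375) * (s - (5/8)) ^ 2 * ((3/4) - s) ^ 3 * (g - 0) * ((1/4) - g) ^ 4
        + (416374564864/4875) * (s - (5/8)) ^ 2 * ((3/4) - s) ^ 3 * (g - 0) ^ 2 * ((1/4) - g) ^ 3
        + (291517073408/5625) * (s - (5/8)) ^ 2 * ((3/4) - s) ^ 3 * (g - 0) ^ 3 * ((1/4) - g) ^ 2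
        + (339399614464/24375) * (s - (5/8)) ^ 2 * ((3/4) - s) ^ 3 * (g - 0) ^ 4 * ((1/4) - g)
        + (130319988736/73125) * (s - (5/8)) ^ 2 * ((3/4) - s) ^ 3 * (g - 0) ^ 5
        + (5168746496/375) * (s - (5/8)) ^ 3 * ((3/4) - s) ^ 2 * ((1/4) - g) ^ 5
        + (3487821436928/73125) * (s - (5/8)) ^ 3 * ((3/4) - s) ^ 2 * (g - 0) * ((1/4) - g) ^ 4
        + (4277101285376/73125) * (s - (5/8)) ^ 3 * ((3/4) - s) ^ 2 * (g - 0) ^ 2 * ((1/4) - g) ^ 3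
        + (47806828544/1625) * (s - (5/8)) ^ 3 * ((3/4) - s) ^ 2 * (g - 0) ^ 3 * ((1/4) - g) ^ 2
        + (421065334784/73125) * (s - (5/8)) ^ 3 * ((3/4) - s) ^ 2 * (g - 0) ^ 4 * ((1/4) - g)
        + (591497216/625) * (s - (5/8)) ^ 3 * ((3/4) - s) ^ 2 * (g - 0) ^ 5
        + (30549622784/5625) * (s - (5/8)) ^ 4 * ((3/4) - s) * ((1/4) - g) ^ 5
        + (1267572482048/73125) * (s - (5/8)) ^ 4 * ((3/4) - s) * (g - 0) * ((1/4) - g) ^ 4
        + (447632162816/24375) * (s - (5/8)) ^ 4 * ((3/4) - s) * (g - 0) ^ 2 * ((1/4) - g) ^ 3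
        + (488835854336/73125) * (s - (5/8)) ^ 4 * ((3/4) - s) * (g - 0) ^ 3 * ((1/4) - g) ^ 2
        + (10644711424/14625) * (s - (5/8)) ^ 4 * ((3/4) - s) * (g - 0) ^ 4 * ((1/4) - g)
        + (37987659776/73125) * (s - (5/8)) ^ 4 * ((3/4) - s) * (g - 0) ^ 5
        + (2461270016/2925) * (s - (5/8)) ^ 5 * ((1/4) - g) ^ 5
        + (59805712384/24375) * (s - (5/8)) ^ 5 * (g - 0) * ((1/4) - g) ^ 4
        + (12357074944/5625) * (s - (5/8)) ^ 5 * (g - 0) ^ 2 * ((1/4) - g) ^ 3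
        + (41693720576/73125) * (s - (5/8)) ^ 5 * (g - 0) ^ 3 * ((1/4) - g) ^ 2
        + (5180796928/24375) * (s - (5/8)) ^ 5 * (g - 0) ^ 4 * ((1/4) - g)
        + (16831428608/73125) * (s - (5/8)) ^ 5 * (g - 0) ^ 5 := by
    unfold poly1
    ring
  rw [e]
  lift (s - (5/8)) to NNReal using hu with u
  lift ((3/4) - s) to NNReal using hv with v
  lift (g - 0) to NNReal using hx with x
  lift ((1/4) - g) to NNReal using hy with y
  positivity

theorem box1_9 {s g : ℝ} (h1 : (1/2) ≤ s) (h2 : s ≤ (5/8)) (h3 : 0 ≤ g) (h4 : g ≤ (1/4)) :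
    0 ≤ poly1 s g := by
  have hu : 0 ≤ (s - (1/2)) := by linarith
  have hv : 0 ≤ ((5/8) - s) := by linarith
  have hx : 0 ≤ (g - 0) := by linarith
  have hy : 0 ≤ ((1/4) - g) := by linarith
  have e : poly1 s g
      = (62232068096/14625) * ((5/8) - s) ^ 5 * ((1/4) - g) ^ 5
        + (1383215890432/73125) * ((5/8) - s) ^ 5 * (g - 0) * ((1/4) - g) ^ 4
        + (2425824968704/73125) * ((5/8) - s) ^ 5 * (g - 0) ^ 2 * ((1/4) - g) ^ 3
        + (2093010644992/73125) * ((5/8) - s) ^ 5 * (g - 0) ^ 3 * ((1/4) - g) ^ 2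
        + (177664458752/14625) * ((5/8) - s) ^ 5 * (g - 0) ^ 4 * ((1/4) - g)
        + (5972289536/2925) * ((5/8) - s) ^ 5 * (g - 0) ^ 5
        + (1420343738368/73125) * (s - (1/2)) * ((5/8) - s) ^ 4 * ((1/4) - g) ^ 5
        + (2075458748416/24375) * (s - (1/2)) * ((5/8) - s) ^ 4 * (g - 0) * ((1/4) - g) ^ 4
        + (10733787406336/73125) * (s - (1/2)) * ((5/8) - s) ^ 4 * (g - 0) ^ 2 * ((1/4) - g) ^ 3
        + (1813954138112/14625) * (s - (1/2)) * ((5/8) - s) ^ 4 * (g - 0) ^ 3 * ((1/4) - g) ^ 2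
        + (1252071405568/24375) * (s - (1/2)) * ((5/8) - s) ^ 4 * (g - 0) ^ 4 * ((1/4) - g)
        + (109391872/13) * (s - (1/2)) * ((5/8) - s) ^ 4 * (g - 0) ^ 5
        + (171135410176/4875) * (s - (1/2)) ^ 2 * ((5/8) - s) ^ 3 * ((1/4) - g) ^ 5
        + (11067852535808/73125) * (s - (1/2)) ^ 2 * ((5/8) - s) ^ 3 * (g - 0) * ((1/4) - g) ^ 4
        + (2076670001152/8125) * (s - (1/2)) ^ 2 * ((5/8) - s) ^ 3 * (g - 0) ^ 2 * ((1/4) - g) ^ 3
        + (5131603361792/24375) * (s - (1/2)) ^ 2 * ((5/8) - s) ^ 3 * (g - 0) ^ 3 * ((1/4) - g) ^ 2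
        + (1237127815168/14625) * (s - (1/2)) ^ 2 * ((5/8) - s) ^ 3 * (g - 0) ^ 4 * ((1/4) - g)
        + (982299326464/73125) * (s - (1/2)) ^ 2 * ((5/8) - s) ^ 3 * (g - 0) ^ 5
        + (2292703922176/73125) * (s - (1/2)) ^ 3 * ((5/8) - s) ^ 2 * ((1/4) - g) ^ 5
        + (9691843956736/73125) * (s - (1/2)) ^ 3 * ((5/8) - s) ^ 2 * (g - 0) * ((1/4) - g) ^ 4
        + (15963101739008/73125) * (s - (1/2)) ^ 3 * ((5/8) - s) ^ 2 * (g - 0) ^ 2 * ((1/4) - g) ^ 3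
        + (12742757337088/73125) * (s - (1/2)) ^ 3 * ((5/8) - s) ^ 2 * (g - 0) ^ 3 * ((1/4) - g) ^ 2
        + (4931277254656/73125) * (s - (1/2)) ^ 3 * ((5/8) - s) ^ 2 * (g - 0) ^ 4 * ((1/4) - g)
        + (251581110272/24375) * (s - (1/2)) ^ 3 * ((5/8) - s) ^ 2 * (g - 0) ^ 5
        + (1010779285504/73125) * (s - (1/2)) ^ 4 * ((5/8) - s) * ((1/4) - g) ^ 5
        + (278284427776/4875) * (s - (1/2)) ^ 4 * ((5/8) - s) * (g - 0) * ((1/4) - g) ^ 4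
        + (741340452864/8125) * (s - (1/2)) ^ 4 * ((5/8) - s) * (g - 0) ^ 2 * ((1/4) - g) ^ 3
        + (5125544485888/73125) * (s - (1/2)) ^ 4 * ((5/8) - s) * (g - 0) ^ 3 * ((1/4) - g) ^ 2
        + (631450095616/24375) * (s - (1/2)) ^ 4 * ((5/8) - s) * (g - 0) ^ 4 * ((1/4) - g)
        + (445621760/117) * (s - (1/2)) ^ 4 * ((5/8) - s) * (g - 0) ^ 5
        + (300799488/125) * (s - (1/2)) ^ 5 * ((1/4) - g) ^ 5
        + (54410580992/5625) * (s - (1/2)) ^ 5 * (g - 0) * ((1/4) - g) ^ 4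
        + (83959671808/5625) * (s - (1/2)) ^ 5 * (g - 0) ^ 2 * ((1/4) - g) ^ 3
        + (20545718272/1875) * (s - (1/2)) ^ 5 * (g - 0) ^ 3 * ((1/4) - g) ^ 2
        + (21618699776/5625) * (s - (1/2)) ^ 5 * (g - 0) ^ 4 * ((1/4) - g)
        + (3084010496/5625) * (s - (1/2)) ^ 5 * (g - 0) ^ 5 := by
    unfold poly1
    ring
  rw [e]
  lift (s - (1/2)) to NNReal using hu with u
  lift ((5/8) - s) to NNReal using hv with v
  lift (g - 0) to NNReal using hx with x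
  lift ((1/4) - g) to NNReal using hy with y
  positivity

theorem box1_10 {s g : ℝ} (h1 : 0 ≤ s) (h2 : s ≤ (1/2)) (h3 : (1/2) ≤ g) (h4 : g ≤ 1) :
    0 ≤ poly1 s g := by
  have hu : 0 ≤ (s - 0) := by linarith
  have hv : 0 ≤ ((1/2) - s) := by linarith
  have hx : 0 ≤ (g - (1/2)) := by linarith
  have hy : 0 ≤ (1 - g) := by linarith
  have e : poly1 s g
      = (18695221/73125) * ((1/2) - s) ^ 5 * (1 - g) ^ 5
        + (1949396/1625) * ((1/2) - s) ^ 5 * (g - (1/2)) * (1 - g) ^ 4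
        + (54788597/24375) * ((1/2) - s) ^ 5 * (g - (1/2)) ^ 2 * (1 - g) ^ 3
        + (30649474/14625) * ((1/2) - s) ^ 5 * (g - (1/2)) ^ 3 * (1 - g) ^ 2
        + (71916892/73125) * ((1/2) - s) ^ 5 * (g - (1/2)) ^ 4 * (1 - g)
        + (14228584/73125) * ((1/2) - s) ^ 5 * (g - (1/2)) ^ 5
        + (24651347/24375) * (s - 0) * ((1/2) - s) ^ 4 * (1 - g) ^ 5
        + (337392716/73125) * (s - 0) * ((1/2) - s) ^ 4 * (g - (1/2)) * (1 - g) ^ 4
        + (609419407/73125) * (s - 0) * ((1/2) - s) ^ 4 * (g - (1/2)) ^ 2 * (1 - g) ^ 3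
        + (4371334/585) * (s - 0) * ((1/2) - s) ^ 4 * (g - (1/2)) ^ 3 * (1 - g) ^ 2
        + (251222908/73125) * (s - 0) * ((1/2) - s) ^ 4 * (g - (1/2)) ^ 4 * (1 - g)
        + (3459416/4875) * (s - 0) * ((1/2) - s) ^ 4 * (g - (1/2)) ^ 5
        + (111084968/73125) * (s - 0) ^ 2 * ((1/2) - s) ^ 3 * (1 - g) ^ 5
        + (478192748/73125) * (s - 0) ^ 2 * ((1/2) - s) ^ 3 * (g - (1/2)) * (1 - g) ^ 4
        + (805595914/73125) * (s - 0) ^ 2 * ((1/2) - s) ^ 3 * (g - (1/2)) ^ 2 * (1 - g) ^ 3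
        + (226164508/24375) * (s - 0) ^ 2 * ((1/2) - s) ^ 3 * (g - (1/2)) ^ 3 * (1 - g) ^ 2
        + (104629946/24375) * (s - 0) ^ 2 * ((1/2) - s) ^ 3 * (g - (1/2)) ^ 4 * (1 - g)
        + (76093148/73125) * (s - 0) ^ 2 * ((1/2) - s) ^ 3 * (g - (1/2)) ^ 5
        + (4773736/4875) * (s - 0) ^ 3 * ((1/2) - s) ^ 2 * (1 - g) ^ 5
        + (273092408/73125) * (s - 0) ^ 3 * ((1/2) - s) ^ 2 * (g - (1/2)) * (1 - g) ^ 4
        + (80055946/14625) * (s - 0) ^ 3 * ((1/2) - s) ^ 2 * (g - (1/2)) ^ 2 * (1 - g) ^ 3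
        + (315883492/73125) * (s - 0) ^ 3 * ((1/2) - s) ^ 2 * (g - (1/2)) ^ 3 * (1 - g) ^ 2
        + (61420682/24375) * (s - 0) ^ 3 * ((1/2) - s) ^ 2 * (g - (1/2)) ^ 4 * (1 - g)
        + (23126872/24375) * (s - 0) ^ 3 * ((1/2) - s) ^ 2 * (g - (1/2)) ^ 5
        + (649603/2925) * (s - 0) ^ 4 * ((1/2) - s) * (1 - g) ^ 5
        + (15406792/24375) * (s - 0) ^ 4 * ((1/2) - s) * (g - (1/2)) * (1 - g) ^ 4
        + (54820151/73125) * (s - 0) ^ 4 * ((1/2) - s) * (g - (1/2)) ^ 2 * (1 - g) ^ 3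
        + (8755778/8125) * (s - 0) ^ 4 * ((1/2) - s) * (g - (1/2)) ^ 3 * (1 - g) ^ 2
        + (21529462/14625) * (s - 0) ^ 4 * ((1/2) - s) * (g - (1/2)) ^ 4 * (1 - g)
        + (54789508/73125) * (s - 0) ^ 4 * ((1/2) - s) * (g - (1/2)) ^ 5
        + (1853383/73125) * (s - 0) ^ 5 * (1 - g) ^ 5
        + (1723364/14625) * (s - 0) ^ 5 * (g - (1/2)) * (1 - g) ^ 4
        + (9671573/24375) * (s - 0) ^ 5 * (g - (1/2)) ^ 2 * (1 - g) ^ 3
        + (62174654/73125) * (s - 0) ^ 5 * (g - (1/2)) ^ 3 * (1 - g) ^ 2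
        + (64935086/73125) * (s - 0) ^ 5 * (g - (1/2)) ^ 4 * (1 - g)
        + (1940968/5625) * (s - 0) ^ 5 * (g - (1/2)) ^ 5 := by
    unfold poly1
    ring
  rw [e]
  lift (s - 0) to NNReal using hu with u
  lift ((1/2) - s) to NNReal using hv with v
  lift (g - (1/2)) to NNReal using hx with x
  lift (1 - g) to NNReal using hy with y
  positivity

theorem box1_11 {s g : ℝ} (h1 : 0 ≤ s) (h2 : s ≤ (1/2)) (h3 : 0 ≤ g) (h4 : g ≤ (1/2)) :
    0 ≤ poly1 s g := by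
  have hu : 0 ≤ (s - 0) := by linarith
  have hv : 0 ≤ ((1/2) - s) := by linarith
  have hx : 0 ≤ (g - 0) := by linarith
  have hy : 0 ≤ ((1/2) - g) := by linarith
  have e : poly1 s g
      = (209792/585) * ((1/2) - s) ^ 5 * ((1/2) - g) ^ 5
        + (119804344/73125) * ((1/2) - s) ^ 5 * (g - 0) * ((1/2) - g) ^ 4
        + (74405792/24375) * ((1/2) - s) ^ 5 * (g - 0) ^ 2 * ((1/2) - g) ^ 3
        + (210392071/73125) * ((1/2) - s) ^ 5 * (g - 0) ^ 3 * ((1/2) - g) ^ 2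
        + (1526606/1125) * ((1/2) - s) ^ 5 * (g - 0) ^ 4 * ((1/2) - g)
        + (18695221/73125) * ((1/2) - s) ^ 5 * (g - 0) ^ 5
        + (36162896/24375) * (s - 0) * ((1/2) - s) ^ 4 * ((1/2) - g) ^ 5
        + (99669032/14625) * (s - 0) * ((1/2) - s) ^ 4 * (g - 0) * ((1/2) - g) ^ 4
        + (928997788/73125) * (s - 0) * ((1/2) - s) ^ 4 * (g - 0) ^ 2 * ((1/2) - g) ^ 3
        + (289479773/24375) * (s - 0) * ((1/2) - s) ^ 4 * (g - 0) ^ 3 * ((1/2) - g) ^ 2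
        + (30934438/5625) * (s - 0) * ((1/2) - s) ^ 4 * (g - 0) ^ 4 * ((1/2) - g)
        + (24651347/24375) * (s - 0) * ((1/2) - s) ^ 4 * (g - 0) ^ 5
        + (186114752/73125) * (s - 0) ^ 2 * ((1/2) - s) ^ 3 * ((1/2) - g) ^ 5
        + (283898738/24375) * (s - 0) ^ 2 * ((1/2) - s) ^ 3 * (g - 0) * ((1/2) - g) ^ 4
        + (1565253448/73125) * (s - 0) ^ 2 * ((1/2) - s) ^ 3 * (g - 0) ^ 2 * ((1/2) - g) ^ 3
        + (56938106/2925) * (s - 0) ^ 2 * ((1/2) - s) ^ 3 * (g - 0) ^ 3 * ((1/2) - g) ^ 2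
        + (210885644/24375) * (s - 0) ^ 2 * ((1/2) - s) ^ 3 * (g - 0) ^ 4 * ((1/2) - g)
        + (111084968/73125) * (s - 0) ^ 2 * ((1/2) - s) ^ 3 * (g - 0) ^ 5
        + (6390484/2925) * (s - 0) ^ 3 * ((1/2) - s) ^ 2 * ((1/2) - g) ^ 5
        + (713610982/73125) * (s - 0) ^ 3 * ((1/2) - s) ^ 2 * (g - 0) * ((1/2) - g) ^ 4
        + (1260060296/73125) * (s - 0) ^ 3 * ((1/2) - s) ^ 2 * (g - 0) ^ 2 * ((1/2) - g) ^ 3
        + (1079782066/73125) * (s - 0) ^ 3 * ((1/2) - s) ^ 2 * (g - 0) ^ 3 * ((1/2) - g) ^ 2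
        + (442967992/73125) * (s - 0) ^ 3 * ((1/2) - s) ^ 2 * (g - 0) ^ 4 * ((1/2) - g)
        + (4773736/4875) * (s - 0) ^ 3 * ((1/2) - s) ^ 2 * (g - 0) ^ 5
        + (7112744/8125) * (s - 0) ^ 4 * ((1/2) - s) * ((1/2) - g) ^ 5
        + (270435082/73125) * (s - 0) ^ 4 * ((1/2) - s) * (g - 0) * ((1/2) - g) ^ 4
        + (88007176/14625) * (s - 0) ^ 4 * ((1/2) - s) * (g - 0) ^ 2 * ((1/2) - g) ^ 3
        + (111553381/24375) * (s - 0) ^ 4 * ((1/2) - s) * (g - 0) ^ 3 * ((1/2) - g) ^ 2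
        + (116180374/73125) * (s - 0) ^ 4 * ((1/2) - s) * (g - 0) ^ 4 * ((1/2) - g)
        + (649603/2925) * (s - 0) ^ 4 * ((1/2) - s) * (g - 0) ^ 5
        + (1899172/14625) * (s - 0) ^ 5 * ((1/2) - g) ^ 5
        + (12315166/24375) * (s - 0) ^ 5 * (g - 0) * ((1/2) - g) ^ 4
        + (1186236/1625) * (s - 0) ^ 5 * (g - 0) ^ 2 * ((1/2) - g) ^ 3
        + (34215479/73125) * (s - 0) ^ 5 * (g - 0) ^ 3 * ((1/2) - g) ^ 2
        + (220378/1625) * (s - 0) ^ 5 * (g - 0) ^ 4 * ((1/2) - g)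
        + (1853383/73125) * (s - 0) ^ 5 * (g - 0) ^ 5 := by
    unfold poly1
    ring
  rw [e]
  lift (s - 0) to NNReal using hu with u
  lift ((1/2) - s) to NNReal using hv with v
  lift (g - 0) to NNReal using hx with x
  lift ((1/2) - g) to NNReal using hy with y
  positivity

theorem box1_12 {s g : ℝ} (h1 : 0 ≤ s) (h2 : s ≤ 1) (h3 : 2 ≤ g) :
    0 ≤ poly1 s g := by
  have hu : 0 ≤ (s - 0) := by linarith
  have hv : 0 ≤ (1 - s) := by linarith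
  have hx : 0 ≤ (g - 2) := by linarith
  have e : poly1 s g
      = (4244897/2340000) * (1 - s) ^ 5
        + (371089/72000) * (1 - s) ^ 5 * (g - 2)
        + (28877221/4680000) * (1 - s) ^ 5 * (g - 2) ^ 2
        + (32665207/9360000) * (1 - s) ^ 5 * (g - 2) ^ 3
        + (1699/1800) * (1 - s) ^ 5 * (g - 2) ^ 4
        + (1699/18000) * (1 - s) ^ 5 * (g - 2) ^ 5
        + (4179697/292500) * (s - 0) * (1 - s) ^ 4
        + (187146061/4680000) * (s - 0) * (1 - s) ^ 4 * (g - 2)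
        + (202648679/4680000) * (s - 0) * (1 - s) ^ 4 * (g - 2) ^ 2
        + (8229323/374400) * (s - 0) * (1 - s) ^ 4 * (g - 2) ^ 3
        + (11893/2250) * (s - 0) * (1 - s) ^ 4 * (g - 2) ^ 4
        + (1699/3600) * (s - 0) * (1 - s) ^ 4 * (g - 2) ^ 5
        + (37658947/780000) * (s - 0) ^ 2 * (1 - s) ^ 3
        + (582643901/4680000) * (s - 0) ^ 2 * (1 - s) ^ 3 * (g - 2)
        + (281683253/2340000) * (s - 0) ^ 2 * (1 - s) ^ 3 * (g - 2) ^ 2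
        + (51012823/936000) * (s - 0) ^ 2 * (1 - s) ^ 3 * (g - 2) ^ 3
        + (52669/4500) * (s - 0) ^ 2 * (1 - s) ^ 3 * (g - 2) ^ 4
        + (1699/1800) * (s - 0) ^ 2 * (1 - s) ^ 3 * (g - 2) ^ 5
        + (19833433/234000) * (s - 0) ^ 3 * (1 - s) ^ 2
        + (100707643/520000) * (s - 0) ^ 3 * (1 - s) ^ 2 * (g - 2)
        + (386503027/2340000) * (s - 0) ^ 3 * (1 - s) ^ 2 * (g - 2) ^ 2
        + (62263831/936000) * (s - 0) ^ 3 * (1 - s) ^ 2 * (g - 2) ^ 3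
        + (28883/2250) * (s - 0) ^ 3 * (1 - s) ^ 2 * (g - 2) ^ 4
        + (1699/1800) * (s - 0) ^ 3 * (1 - s) ^ 2 * (g - 2) ^ 5
        + (4948601/65000) * (s - 0) ^ 4 * (1 - s)
        + (7785243/52000) * (s - 0) ^ 4 * (1 - s) * (g - 2)
        + (522121201/4680000) * (s - 0) ^ 4 * (1 - s) * (g - 2) ^ 2
        + (74899639/1872000) * (s - 0) ^ 4 * (1 - s) * (g - 2) ^ 3
        + (62863/9000) * (s - 0) ^ 4 * (1 - s) * (g - 2) ^ 4
        + (1699/3600) * (s - 0) ^ 4 * (1 - s) * (g - 2) ^ 5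
        + (1249859/45000) * (s - 0) ^ 5
        + (1371293/30000) * (s - 0) ^ 5 * (g - 2)
        + (2134003/72000) * (s - 0) ^ 5 * (g - 2) ^ 2
        + (6840019/720000) * (s - 0) ^ 5 * (g - 2) ^ 3
        + (1699/1125) * (s - 0) ^ 5 * (g - 2) ^ 4
        + (1699/18000) * (s - 0) ^ 5 * (g - 2) ^ 5 := by
    unfold poly1
    ring
  rw [e]
  lift (s - 0) to NNReal using hu with u
  lift (1 - s) to NNReal using hv with v
  lift (g - 2) to NNReal using hx with x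
  positivity

theorem poly1_nonneg {s g : ℝ} (hs0 : 0 ≤ s) (hs1 : s ≤ 1) (hg : 0 ≤ g) : 0 ≤ poly1 s g := by
  rcases le_total g (1/2) with h | h
  ·
    rcases le_total s (1/2) with h | h
    ·
      exact box1_11 (by linarith) (by linarith) (by linarith) (by linarith)
    ·
      rcases le_total s (5/8) with h | h
      ·
        rcases le_total g (1/4) with h | h
        ·
          exact box1_9 (by linarith) (by linarith) (by linarith) (by linarith)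
        ·
          exact box1_7 (by linarith) (by linarith) (by linarith) (by linarith)
      ·
        rcases le_total s (3/4) with h | h
        ·
          rcases le_total g (1/4) with h | h
          ·
            exact box1_8 (by linarith) (by linarith) (by linarith) (by linarith)
          ·
            exact box1_6 (by linarith) (by linarith) (by linarith) (by linarith)
        ·
          rcases le_total g (1/4) with h | h
          ·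
            rcases le_total s (7/8) with h | h
            ·
              rcases le_total g (1/8) with h | h
              ·
                exact box1_5 (by linarith) (by linarith) (by linarith) (by linarith)
              ·
                exact box1_4 (by linarith) (by linarith) (by linarith) (by linarith)
            ·
              exact box1_3 (by linarith) (by linarith) (by linarith) (by linarith)
          ·
            exact box1_2 (by linarith) (by linarith) (by linarith) (by linarith)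
  ·
    rcases le_total g 1 with h | h
    ·
      rcases le_total s (1/2) with h | h
      ·
        exact box1_10 (by linarith) (by linarith) (by linarith) (by linarith)
      ·
        exact box1_1 (by linarith) (by linarith) (by linarith) (by linarith)
    ·
      rcases le_total g 2 with h | h
      ·
        exact box1_0 (by linarith) (by linarith) (by linarith) (by linarith)
      ·
        exact box1_12 (by linarith) (by linarith) (by linarith)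

end Vale.Agent.P237.Full.Lemma
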